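import Vale.Agent.P370.H32.Kernel

/-! Trace and Hilbert-Schmidt norm of the shell kernel. -/

namespace Vale.Agent.P370.H32

open MeasureTheory Set Real Filter Topology
open scoped ENNReal
open Vale.Agent.P363.H849

noncomputable section

theorem differentiable_Ssym (n : ℕ) (v : ℝ) : Differentiable ℝ fun u => Ssym n u v := by
  unfold Ssym hsym
  fun_prop

theorem Ssym_self {n : ℕ} (hn : 0 < n) (w : ℝ) : Ssym n w w
    = w * (Lp n).derivative.eval w ^ 2 - w / n * (Lp n).eval w * (Lp n).derivative.eval w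
      + (Lp n).eval w ^ 2 := by
  have h1 : (fun u => (u - w) * Ssym n u w) = fun u =>
      w * (Lp n).derivative.eval w * (Lp n).eval u - u * (Lp n).derivative.eval u * (Lp n).eval w := by
    funext u
    rw [H546.Ssym_mul]
  have h2 : HasDerivAt (fun u => (u - w) * Ssym n u w) (Ssym n w w) w := by
    have := ((hasDerivAt_id w).sub_const w).mul ((differentiable_Ssym n w) w).hasDerivAt
    refine this.congr_deriv ?_
    simp
  have h3 : HasDerivAt (fun u =>
      w * (Lp n).derivative.eval w * (Lp n).eval u - u * (Lp n).derivative.eval u * (Lp n).eval w)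
      (w * (Lp n).derivative.eval w * (Lp n).derivative.eval w
        - ((Lp n).derivative.eval w + w * (Lp n).derivative.derivative.eval w) * (Lp n).eval w) w := by
    have := (((Lp n).hasDerivAt w).const_mul (w * (Lp n).derivative.eval w)).sub
      (((hasDerivAt_id w).mul ((Lp n).derivative.hasDerivAt w)).mul_const ((Lp n).eval w))
    refine this.congr_deriv ?_
    simp
  rw [h1] at h2
  have h4 := h2.unique h3
  rw [h4]
  have h5 := ode_eval hn w
  have h6 : w * (Lp n).derivative.derivative.eval w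
      = -((1 - w / n) * (Lp n).derivative.eval w) - (Lp n).eval w := by linarith
  rw [h6]
  ring

theorem diag_exp {n : ℕ} (hn : 0 < n) (w : ℝ) : w * Ssym n w w * exp (-(1 / (n : ℝ)) * w)
    = w * fR' n w ^ 2 + fR n w ^ 2 - 1 / (4 * n ^ 2) * (w * fR n w ^ 2) := by
  have hn' : (n : ℝ) ≠ 0 := by positivity
  rw [Ssym_self hn, ← exp_sq]
  unfold fR fR'
  field_simp
  ring

theorem trace_KK {n : ℕ} (hn : 0 < n) : ∫ x, KK n x x = (n : ℝ) ^ 2 := by
  have hn' : (n : ℝ) ≠ 0 := by positivity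
  have hA := A0_pos hn
  have e1 : ∀ x : R3, KK n x x = (fun r => 2 / (π * A0 n) * Ssym n (2 * r) (2 * r)
      * exp (-(1 / (n : ℝ)) * (2 * r))) ‖x‖ := by
    intro x
    simp only [KK, uu, vv, sub_self, norm_zero, add_zero, sub_zero, ← two_mul]
    congr 2
    ring
  simp only [e1]
  rw [integral_rad (fun r => 2 / (π * A0 n) * Ssym n (2 * r) (2 * r)
      * exp (-(1 / (n : ℝ)) * (2 * r)))]
  have e2 : ∀ r : ℝ, r ^ 2 * (2 / (π * A0 n) * Ssym n (2 * r) (2 * r)
      * exp (-(1 / (n : ℝ)) * (2 * r))) = (fun w => 1 / (2 * π * A0 n) * (w ^ 2 * fR' n w ^ 2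
        + w ^ 1 * fR n w ^ 2 - 1 / (4 * n ^ 2) * (w ^ 2 * fR n w ^ 2))) (2 * r) := by
    intro r
    have := diag_exp hn (2 * r)
    simp only
    have h2 : (2 * r) ^ 2 * fR' n (2 * r) ^ 2 + (2 * r) ^ 1 * fR n (2 * r) ^ 2
        - 1 / (4 * n ^ 2) * ((2 * r) ^ 2 * fR n (2 * r) ^ 2)
        = (2 * r) * ((2 * r) * Ssym n (2 * r) (2 * r) * exp (-(1 / (n : ℝ)) * (2 * r))) := by
      rw [this]; ring
    rw [h2]
    field_simp
  simp only [e2]
  rw [integral_comp_mul_left_Ioi (fun w => 1 / (2 * π * A0 n) * (w ^ 2 * fR' n w ^ 2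
        + w ^ 1 * fR n w ^ 2 - 1 / (4 * n ^ 2) * (w ^ 2 * fR n w ^ 2))) 0 two_pos, mul_zero,
    integral_const_mul]
  have i1 := iB hn 2
  have i2 := iA hn 1
  have i3 := (iA hn 2).const_mul (1 / (4 * (n : ℝ) ^ 2))
  have e3 := integral_sub (i1.add i2) i3
  have e4 := integral_add i1 i2
  simp only [Pi.add_apply] at e3
  rw [e3, e4, integral_const_mul]
  change 4 * π * (2⁻¹ • (1 / (2 * π * A0 n) * (MB n 2 + MA n 1 - 1 / (4 * (n : ℝ) ^ 2) * MA n 2))) = _
  obtain ⟨a1, a2, b0, b1, b2, d0, d1, d2⟩ := moments hn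
  rw [a1, a2, b2, smul_eq_mul]
  field_simp
  ring

/-! ### the Hilbert-Schmidt norm -/

/-- the Wronskian-like function `f(u) f'(v) - f'(u) f(v)` -/
def Wr (n : ℕ) (u v : ℝ) : ℝ := fR n u * fR' n v - fR' n u * fR n v

theorem Wr_self (n : ℕ) (u : ℝ) : Wr n u u = 0 := by
  unfold Wr; ring

theorem Wr_swap (n : ℕ) (u v : ℝ) : Wr n v u = -Wr n u v := by
  unfold Wr; ring

theorem Wr_eq (n : ℕ) (u v : ℝ) :
    Wr n u v = (u - v) * Ssym n u v * exp (-(u / (2 * n)) + -(v / (2 * n))) := by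
  rw [H546.Ssym_mul, Real.exp_add]
  unfold Wr fR fR'
  ring

theorem Wr_sq {n : ℕ} (hn : 0 < n) (u v : ℝ) :
    Wr n u v ^ 2 = (u - v) ^ 2 * Ssym n u v ^ 2 * exp (-((u + v) / n)) := by
  have hn' : (n : ℝ) ≠ 0 := by positivity
  rw [Wr_eq, mul_pow, mul_pow, ← Real.exp_nat_mul]
  congr 2
  push_cast
  field_simp
  ring

/-- the region in the coordinates `(σ, s)` -/
def Reg2 : Set (ℝ × ℝ) := {p | 0 < p.2 ∧ p.2 < p.1}

theorem measurableSet_Reg2 : MeasurableSet Reg2 := by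
  have h1 : MeasurableSet {q : ℝ × ℝ | 0 < q.2} := measurableSet_lt (by fun_prop) (by fun_prop)
  have h2 : MeasurableSet {q : ℝ × ℝ | q.2 < q.1} := measurableSet_lt (by fun_prop) (by fun_prop)
  exact h1.inter h2

/-- functions of `(σ, s)` -/
theorem lintegral_Reg2 {G : ℝ × ℝ → ℝ≥0∞} (hG : Measurable G) :
    ∫⁻ q in Reg, ENNReal.ofReal (wt q) * G (q.1, q.2.1)
      = ∫⁻ σ, ∫⁻ s, Reg2.indicator
        (fun p => ENNReal.ofReal (2 * π ^ 2 / 3 * p.2 ^ 2 * (3 * p.1 ^ 2 - p.2 ^ 2)) * G p) (σ, s) := by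
  have hm : Measurable fun q : ℝ × ℝ × ℝ => Reg.indicator
      (fun q => ENNReal.ofReal (wt q) * G (q.1, q.2.1)) q := by
    apply Measurable.indicator _ measurableSet_Reg
    apply (ENNReal.measurable_ofReal.comp measurable_wt).mul
    exact hG.comp (by fun_prop)
  rw [← lintegral_indicator measurableSet_Reg, Measure.volume_eq_prod,
    lintegral_prod _ hm.aemeasurable]
  apply lintegral_congr
  intro σ
  have hm2 : Measurable fun q : ℝ × ℝ => Reg.indicator
      (fun q => ENNReal.ofReal (wt q) * G (q.1, q.2.1)) (σ, q) :=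
    hm.comp (measurable_const.prodMk measurable_id)
  rw [Measure.volume_eq_prod, lintegral_prod _ hm2.aemeasurable]
  apply lintegral_congr
  intro s
  by_cases h : (σ, s) ∈ Reg2
  · have hs : 0 < s := h.1
    have hsσ : s < σ := h.2
    rw [indicator_of_mem h]
    have e1 : ∀ d : ℝ, Reg.indicator (fun q => ENNReal.ofReal (wt q) * G (q.1, q.2.1)) (σ, s, d)
        = (Ioo (-s) s).indicator (fun d => ENNReal.ofReal (π ^ 2 * s * (σ ^ 2 - d ^ 2)) * G (σ, s)) d := by
      intro d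
      by_cases hd : d ∈ Ioo (-s) s
      · rw [indicator_of_mem hd, indicator_of_mem]
        · rfl
        · exact ⟨abs_lt.2 hd, hsσ⟩
      · rw [indicator_of_notMem hd, indicator_of_notMem]
        rintro ⟨h1, -⟩
        exact hd (abs_lt.1 h1)
    simp only [e1]
    have hm3 : Measurable fun d : ℝ => ENNReal.ofReal (π ^ 2 * s * (σ ^ 2 - d ^ 2)) :=
      ENNReal.measurable_ofReal.comp (by fun_prop)
    rw [lintegral_indicator measurableSet_Ioo, lintegral_mul_const _ hm3]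
    congr 1
    have hc : Continuous fun d : ℝ => π ^ 2 * s * (σ ^ 2 - d ^ 2) := by fun_prop
    have hi : IntegrableOn (fun d : ℝ => π ^ 2 * s * (σ ^ 2 - d ^ 2)) (Ioo (-s) s) :=
      (hc.continuousOn.integrableOn_Icc).mono_set Ioo_subset_Icc_self
    rw [← ofReal_integral_eq_lintegral_ofReal hi]
    · congr 1
      rw [← integral_Ioc_eq_integral_Ioo, ← intervalIntegral.integral_of_le (by linarith),
        intervalIntegral.integral_const_mul, intervalIntegral.integral_sub, integral_pow]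
      · simp
        ring
      · exact intervalIntegrable_const
      · exact (continuous_pow 2).intervalIntegrable _ _
    · filter_upwards [ae_restrict_mem measurableSet_Ioo] with d hd
      have h4 : |d| < σ := (abs_lt.2 hd).trans hsσ
      have h5 : d ^ 2 ≤ σ ^ 2 := by
        rw [← sq_abs d]
        exact pow_le_pow_left₀ (abs_nonneg d) h4.le 2
      have h6 : 0 ≤ σ ^ 2 - d ^ 2 := by linarith
      simp only [Pi.zero_apply]
      positivity
  · rw [indicator_of_notMem h]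
    rw [lintegral_eq_zero_of_ae_eq_zero]
    filter_upwards with d
    rw [indicator_of_notMem]
    · rfl
    · rintro ⟨h1, h2⟩
      exact h ⟨(abs_nonneg d).trans_lt h1, h2⟩

/-- the integrand in the coordinates `(u, v)` -/
def Hq (n : ℕ) (u v : ℝ) : ℝ := 1 / (6 * A0 n ^ 2) * ((u ^ 2 + 4 * u * v + v ^ 2) * Wr n u v ^ 2)

theorem Hq_swap (n : ℕ) (u v : ℝ) : Hq n v u = Hq n u v := by
  unfold Hq
  rw [Wr_swap]
  ring

theorem continuous_fRp {n : ℕ} : Continuous fun q : ℝ × ℝ => Ssym n q.1 q.2 := by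
  unfold Ssym hsym
  fun_prop

theorem HS_lintegral {n : ℕ} (hn : 0 < n) :
    ∫⁻ p : R3 × R3, ENNReal.ofReal (KK n p.1 p.2 ^ 2)
      = ∫⁻ u, ∫⁻ v, {p : ℝ × ℝ | 0 < p.2 ∧ p.2 < p.1}.indicator
        (fun p => ENNReal.ofReal (Hq n p.1 p.2)) (u, v) := by
  have hn' : (n : ℝ) ≠ 0 := by positivity
  have hA := A0_pos hn
  set G : ℝ × ℝ → ℝ≥0∞ := fun p => ENNReal.ofReal ((2 / (π * A0 n)) ^ 2
    * (Ssym n (p.1 + p.2) (p.1 - p.2) ^ 2 * exp (-((2 * p.1) / n)))) with hGd
  have hG : Measurable G := by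
    apply ENNReal.measurable_ofReal.comp
    have h1 : Measurable fun p : ℝ × ℝ => Ssym n (p.1 + p.2) (p.1 - p.2) :=
      continuous_fRp.measurable.comp (g := fun q : ℝ × ℝ => Ssym n q.1 q.2)
        (f := fun p : ℝ × ℝ => (p.1 + p.2, p.1 - p.2)) (by fun_prop)
    fun_prop
  have e1 : ∀ p : R3 × R3, ENNReal.ofReal (KK n p.1 p.2 ^ 2)
      = (fun q : ℝ × ℝ × ℝ => G (q.1, q.2.1)) (tri p) := by
    intro p
    simp only [hGd, tri, KK, uu, vv]
    congr 1
    rw [mul_pow, mul_pow, ← Real.exp_nat_mul, mul_assoc]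
    congr 3
    push_cast
    ring
  simp only [e1]
  rw [lintegral_tri (F := fun q : ℝ × ℝ × ℝ => G (q.1, q.2.1)) (hG.comp (by fun_prop)),
    lintegral_Reg2 hG]
  have hm : Measurable (Reg2.indicator
      (fun p => ENNReal.ofReal (2 * π ^ 2 / 3 * p.2 ^ 2 * (3 * p.1 ^ 2 - p.2 ^ 2)) * G p)) := by
    apply Measurable.indicator _ measurableSet_Reg2
    apply Measurable.mul _ hG
    apply ENNReal.measurable_ofReal.comp
    fun_prop
  rw [lintegral_sumdiff hm]
  apply lintegral_congr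
  intro u
  apply lintegral_congr
  intro v
  by_cases h : 0 < v ∧ v < u
  · have hL : ((u + v) / 2, (u - v) / 2) ∈ Reg2 :=
      ⟨by simp only; linarith [h.2], by simp only; linarith [h.1]⟩
    have hR : (u, v) ∈ {p : ℝ × ℝ | 0 < p.2 ∧ p.2 < p.1} := h
    rw [indicator_of_mem hL, indicator_of_mem hR]
    simp only [hGd]
    rw [← mul_assoc, ← ENNReal.ofReal_mul (by norm_num), ← ENNReal.ofReal_mul]
    · congr 1
      have e2 : (u + v) / 2 + (u - v) / 2 = u := by ring
      have e3 : (u + v) / 2 - (u - v) / 2 = v := by ring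
      have e4 : 2 * ((u + v) / 2) = u + v := by ring
      rw [e2, e3, e4, Hq, Wr_sq hn]
      field_simp
      ring
    · have : 0 ≤ 3 * ((u + v) / 2) ^ 2 - ((u - v) / 2) ^ 2 := by nlinarith [h.1, h.2]
      positivity
  · have hR : (u, v) ∉ {p : ℝ × ℝ | 0 < p.2 ∧ p.2 < p.1} := h
    have hL : ((u + v) / 2, (u - v) / 2) ∉ Reg2 := by
      rintro ⟨h1, h2⟩
      simp only at h1 h2
      exact h ⟨by linarith, by linarith⟩
    rw [indicator_of_notMem hL, indicator_of_notMem hR, mul_zero]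

theorem measurable_Hq {n : ℕ} (hn : 0 < n) : Measurable fun p : ℝ × ℝ => Hq n p.1 p.2 := by
  have h1 := (fR_continuous hn).measurable
  have h2 := (fR'_continuous hn).measurable
  unfold Hq Wr
  fun_prop

theorem HS_quad {n : ℕ} (hn : 0 < n) :
    2 * ∫⁻ u, ∫⁻ v, {p : ℝ × ℝ | 0 < p.2 ∧ p.2 < p.1}.indicator
        (fun p => ENNReal.ofReal (Hq n p.1 p.2)) (u, v)
      = ∫⁻ p in Ioi (0 : ℝ) ×ˢ Ioi (0 : ℝ), ENNReal.ofReal (Hq n p.1 p.2) := by
  set S : Set (ℝ × ℝ) := {p : ℝ × ℝ | 0 < p.2 ∧ p.2 < p.1} with hS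
  set S' : Set (ℝ × ℝ) := {p : ℝ × ℝ | 0 < p.1 ∧ p.1 < p.2} with hS'
  have hSm : MeasurableSet S := measurableSet_Reg2
  have hSm' : MeasurableSet S' := by
    have h1 : MeasurableSet {q : ℝ × ℝ | 0 < q.1} := measurableSet_lt (by fun_prop) (by fun_prop)
    have h2 : MeasurableSet {q : ℝ × ℝ | q.1 < q.2} := measurableSet_lt (by fun_prop) (by fun_prop)
    exact h1.inter h2
  have hm : Measurable fun p : ℝ × ℝ => ENNReal.ofReal (Hq n p.1 p.2) :=
    ENNReal.measurable_ofReal.comp (measurable_Hq hn)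
  have hI : Measurable (S.indicator fun p : ℝ × ℝ => ENNReal.ofReal (Hq n p.1 p.2)) :=
    hm.indicator hSm
  have hI' : Measurable (S'.indicator fun p : ℝ × ℝ => ENNReal.ofReal (Hq n p.1 p.2)) :=
    hm.indicator hSm'
  have hsw : ∫⁻ u, ∫⁻ v, S.indicator (fun p : ℝ × ℝ => ENNReal.ofReal (Hq n p.1 p.2)) (u, v)
      = ∫⁻ u, ∫⁻ v, S'.indicator (fun p : ℝ × ℝ => ENNReal.ofReal (Hq n p.1 p.2)) (u, v) := by
    rw [lintegral_lintegral_swap (f := fun u v =>
      S.indicator (fun p : ℝ × ℝ => ENNReal.ofReal (Hq n p.1 p.2)) (u, v)) hI.aemeasurable]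
    apply lintegral_congr
    intro u
    apply lintegral_congr
    intro v
    by_cases h : 0 < u ∧ u < v
    · have h1 : (v, u) ∈ S := h
      have h2 : (u, v) ∈ S' := h
      rw [indicator_of_mem h1, indicator_of_mem h2, Hq_swap]
    · have h1 : (v, u) ∉ S := h
      have h2 : (u, v) ∉ S' := h
      rw [indicator_of_notMem h1, indicator_of_notMem h2]
  rw [two_mul]
  nth_rewrite 2 [hsw]
  rw [← lintegral_prod _ hI.aemeasurable, ← lintegral_prod _ hI'.aemeasurable,
    ← lintegral_add_left hI, ← lintegral_indicator (measurableSet_Ioi.prod measurableSet_Ioi),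
    Measure.volume_eq_prod]
  apply lintegral_congr
  rintro ⟨u, v⟩
  rcases lt_trichotomy u v with h | h | h
  · have h1 : (u, v) ∉ S := fun h2 => absurd h2.2 (not_lt.2 h.le)
    rw [indicator_of_notMem h1, zero_add]
    by_cases hu : 0 < u
    · have h2 : (u, v) ∈ S' := ⟨hu, h⟩
      have h3 : (u, v) ∈ Ioi (0 : ℝ) ×ˢ Ioi (0 : ℝ) := ⟨hu, hu.trans h⟩
      rw [indicator_of_mem h2, indicator_of_mem h3]
    · have h2 : (u, v) ∉ S' := fun h2 => hu h2.1
      have h3 : (u, v) ∉ Ioi (0 : ℝ) ×ˢ Ioi (0 : ℝ) := fun h3 => hu h3.1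
      rw [indicator_of_notMem h2, indicator_of_notMem h3]
  · subst h
    have h1 : (u, u) ∉ S := fun h2 => absurd h2.2 (lt_irrefl _)
    have h2 : (u, u) ∉ S' := fun h2 => absurd h2.2 (lt_irrefl _)
    rw [indicator_of_notMem h1, indicator_of_notMem h2]
    have h4 : ENNReal.ofReal (Hq n u u) = 0 := by simp [Hq, Wr_self]
    by_cases h3 : (u, u) ∈ Ioi (0 : ℝ) ×ˢ Ioi (0 : ℝ)
    · rw [indicator_of_mem h3, h4, add_zero]
    · rw [indicator_of_notMem h3, add_zero]
  · have h1 : (u, v) ∉ S' := fun h2 => absurd h2.2 (not_lt.2 h.le)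
    rw [indicator_of_notMem h1, add_zero]
    by_cases hv : 0 < v
    · have h2 : (u, v) ∈ S := ⟨hv, h⟩
      have h3 : (u, v) ∈ Ioi (0 : ℝ) ×ˢ Ioi (0 : ℝ) := ⟨hv.trans h, hv⟩
      rw [indicator_of_mem h2, indicator_of_mem h3]
    · have h2 : (u, v) ∉ S := fun h2 => hv h2.1
      have h3 : (u, v) ∉ Ioi (0 : ℝ) ×ˢ Ioi (0 : ℝ) := fun h3 => hv h3.2
      rw [indicator_of_notMem h2, indicator_of_notMem h3]

/-- the quadrant integral, from the moments -/
theorem quad_integral {n : ℕ} (hn : 0 < n) :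
    IntegrableOn (fun p : ℝ × ℝ => Hq n p.1 p.2) (Ioi (0 : ℝ) ×ˢ Ioi (0 : ℝ)) ∧
    ∫ p in Ioi (0 : ℝ) ×ˢ Ioi (0 : ℝ), Hq n p.1 p.2 = 2 * n ^ 2 := by
  have hn' : (n : ℝ) ≠ 0 := by positivity
  have hA := A0_pos hn
  set μ : Measure ℝ := volume.restrict (Ioi 0) with hμ
  have hprod : (volume : Measure (ℝ × ℝ)).restrict (Ioi (0 : ℝ) ×ˢ Ioi (0 : ℝ)) = μ.prod μ := by
    rw [Measure.volume_eq_prod, ← Measure.prod_restrict]
  let a : ℕ → ℝ → ℝ := fun k w => w ^ k * fR n w ^ 2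
  let b : ℕ → ℝ → ℝ := fun k w => w ^ k * fR' n w ^ 2
  let d : ℕ → ℝ → ℝ := fun k w => w ^ k * (fR n w * fR' n w)
  have ia : ∀ k, Integrable (a k) μ := fun k => iA hn k
  have ib : ∀ k, Integrable (b k) μ := fun k => iB hn k
  have id' : ∀ k, Integrable (d k) μ := fun k => iD hn k
  have e : (fun p : ℝ × ℝ => Hq n p.1 p.2) = fun p : ℝ × ℝ => 1 / (6 * A0 n ^ 2) *
      ((a 2 p.1 * b 0 p.2 + 4 * (a 1 p.1 * b 1 p.2) + a 0 p.1 * b 2 p.2)
      + (b 2 p.1 * a 0 p.2 + 4 * (b 1 p.1 * a 1 p.2) + b 0 p.1 * a 2 p.2)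
      - (2 * (d 2 p.1 * d 0 p.2) + 8 * (d 1 p.1 * d 1 p.2) + 2 * (d 0 p.1 * d 2 p.2))) := by
    funext p
    simp only [Hq, Wr, a, b, d]
    ring
  have j1 := (ia 2).mul_prod (ib 0)
  have j2 := ((ia 1).mul_prod (ib 1)).const_mul 4
  have j3 := (ia 0).mul_prod (ib 2)
  have j4 := (ib 2).mul_prod (ia 0)
  have j5 := ((ib 1).mul_prod (ia 1)).const_mul 4
  have j6 := (ib 0).mul_prod (ia 2)
  have j7 := ((id' 2).mul_prod (id' 0)).const_mul 2
  have j8 := ((id' 1).mul_prod (id' 1)).const_mul 8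
  have j9 := ((id' 0).mul_prod (id' 2)).const_mul 2
  have J1 := (j1.add j2).add j3
  have J2 := (j4.add j5).add j6
  have J3 := (j7.add j8).add j9
  have J := (J1.add J2).sub J3
  constructor
  · rw [IntegrableOn, hprod, e]
    exact J.const_mul _
  · rw [hprod, e, integral_const_mul]
    have s0 := integral_sub (J1.add J2) J3
    have s1 := integral_add J1 J2
    have s2 := integral_add (j1.add j2) j3
    have s3 := integral_add j1 j2
    have s4 := integral_add (j4.add j5) j6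
    have s5 := integral_add j4 j5
    have s6 := integral_add (j7.add j8) j9
    have s7 := integral_add j7 j8
    simp only [Pi.add_apply] at s0 s1 s2 s3 s4 s5 s6 s7
    rw [s0, s1, s2, s3, s4, s5, s6, s7]
    simp only [integral_const_mul]
    rw [integral_prod_mul (a 2) (b 0), integral_prod_mul (a 1) (b 1), integral_prod_mul (a 0) (b 2),
      integral_prod_mul (b 2) (a 0), integral_prod_mul (b 1) (a 1), integral_prod_mul (b 0) (a 2),
      integral_prod_mul (d 2) (d 0), integral_prod_mul (d 1) (d 1), integral_prod_mul (d 0) (d 2)]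
    have A : ∀ k, ∫ w, a k w ∂μ = MA n k := fun k => rfl
    have B : ∀ k, ∫ w, b k w ∂μ = MB n k := fun k => rfl
    have D : ∀ k, ∫ w, d k w ∂μ = MD n k := fun k => rfl
    simp only [A, B, D]
    obtain ⟨a1, a2, b0, b1, b2, d0, d1, d2⟩ := moments hn
    rw [MA_zero, a1, a2, b0, b1, b2, d0, d1, d2]
    field_simp
    ring

theorem Hq_nonneg {n : ℕ} {u v : ℝ} (hu : 0 < u) (hv : 0 < v) : 0 ≤ Hq n u v := by
  unfold Hq
  positivity

theorem HS_value {n : ℕ} (hn : 0 < n) :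
    ∫⁻ p : R3 × R3, ENNReal.ofReal (KK n p.1 p.2 ^ 2) = ENNReal.ofReal ((n : ℝ) ^ 2) := by
  rw [HS_lintegral hn]
  have h1 := HS_quad hn
  obtain ⟨hi, hv⟩ := quad_integral hn
  have h2 : ∫⁻ p in Ioi (0 : ℝ) ×ˢ Ioi (0 : ℝ), ENNReal.ofReal (Hq n p.1 p.2)
      = ENNReal.ofReal (2 * (n : ℝ) ^ 2) := by
    rw [← hv, ofReal_integral_eq_lintegral_ofReal hi]
    filter_upwards [ae_restrict_mem (measurableSet_Ioi.prod measurableSet_Ioi)] with p hp
    exact Hq_nonneg hp.1 hp.2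
  rw [h2, ENNReal.ofReal_mul (by norm_num)] at h1
  have h3 : ENNReal.ofReal 2 = 2 := by simp
  rw [h3] at h1
  exact (ENNReal.mul_right_inj (by norm_num) (by norm_num)).1 h1

theorem continuous_KK (n : ℕ) : Continuous fun p : R3 × R3 => KK n p.1 p.2 := by
  have h2 : Continuous fun p : R3 × R3 => (uu p.1 p.2, vv p.1 p.2) := by
    unfold uu vv
    fun_prop
  have h1 : Continuous fun p : R3 × R3 => Ssym n (uu p.1 p.2) (vv p.1 p.2) :=
    Continuous.comp (g := fun q : ℝ × ℝ => Ssym n q.1 q.2)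
      (f := fun p : R3 × R3 => (uu p.1 p.2, vv p.1 p.2)) (continuous_fRp (n := n)) h2
  have h3 : Continuous fun p : R3 × R3 => exp (-((‖p.1‖ + ‖p.2‖) / n)) := by fun_prop
  exact (h1.const_mul _).mul h3

theorem HS_KK {n : ℕ} (hn : 0 < n) : ∫ p : R3 × R3, KK n p.1 p.2 ^ 2 = (n : ℝ) ^ 2 := by
  have hm : AEStronglyMeasurable (fun p : R3 × R3 => KK n p.1 p.2 ^ 2) volume :=
    ((continuous_KK n).pow 2).aestronglyMeasurable
  rw [integral_eq_lintegral_of_nonneg_ae (by filter_upwards with p; positivity) hm, HS_value hn,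
    ENNReal.toReal_ofReal (by positivity)]

/-- **CK4: the kernel theorem.**  For every orthonormal basis of the shell with principal quantum
number `j + 1`, the kernel of the projection is `KK (j + 1)`. -/
theorem shell_kernel {j : ℕ} {ι : Type*} [Fintype ι] [DecidableEq ι]
    (hcard : Fintype.card ι = (j + 1) ^ 2) (w : ι → H1) (hw : ∀ i, w i ∈ H624.Shell j)
    (ho : ∀ i k, ip (w i) (w k) = if i = k then 1 else 0) (x y : R3) :
    ∑ i, (w i).1.1 x * (w i).1.1 y = KK (j + 1) x y := by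
  apply shell_kernel_of hcard w hw ho
  · rw [trace_KK (Nat.succ_pos j)]
    push_cast
    rfl
  · rw [HS_KK (Nat.succ_pos j)]
    push_cast
    rfl

end

end Vale.Agent.P370.H32
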