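import Vale.Agent.P363.H849.Rad
import Mathlib.Analysis.SpecialFunctions.PolarCoord
import Mathlib.MeasureTheory.Function.JacobianOneDim

/-! Cylindrical, bipolar and triangle coordinates on `ℝ³` and `ℝ³ × ℝ³`. -/

namespace Vale.Agent.P370.H32

open MeasureTheory Set Real
open scoped ENNReal
open Vale.Agent.P363.H849 (R3)

noncomputable section

/-- slicing of `ℝ³` -/
theorem lintegral_slice (G : R3 → ℝ≥0∞) (hG : Measurable G) :
    ∫⁻ y : R3, G y = ∫⁻ z : ℝ, ∫⁻ p : ℝ × ℝ, G (!₂[p.1, p.2, z]) := by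
  have h1 := (EuclideanSpace.volume_preserving_symm_measurableEquiv_toLp (Fin 3)).symm
  rw [← h1.lintegral_comp hG]
  have h2 := (volume_preserving_piFinSuccAbove (fun _ : Fin 3 => ℝ) 2).symm
  have hm : Measurable fun a : Fin 3 → ℝ =>
      G ((MeasurableEquiv.toLp 2 (Fin 3 → ℝ)).symm.symm a) := hG.comp (MeasurableEquiv.measurable _)
  rw [← h2.lintegral_comp hm]
  have hm1 : Measurable fun a : ℝ × (Fin 2 → ℝ) => G ((MeasurableEquiv.toLp 2 (Fin 3 → ℝ)).symm.symm
      ((MeasurableEquiv.piFinSuccAbove (fun _ : Fin 3 => ℝ) 2).symm a)) :=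
    hm.comp (MeasurableEquiv.measurable _)
  rw [Measure.volume_eq_prod, lintegral_prod _ hm1.aemeasurable]
  apply lintegral_congr
  intro z
  have h3 := (volume_preserving_finTwoArrow ℝ).symm
  have hm2 : Measurable fun a : Fin 2 → ℝ => G ((MeasurableEquiv.toLp 2 (Fin 3 → ℝ)).symm.symm
      ((MeasurableEquiv.piFinSuccAbove (fun _ : Fin 3 => ℝ) 2).symm (z, a))) := by
    exact (hm.comp (MeasurableEquiv.measurable _)).comp (measurable_const.prodMk measurable_id)
  rw [← h3.lintegral_comp hm2]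
  apply lintegral_congr
  intro p
  congr 1
  ext i
  fin_cases i <;> simp [MeasurableEquiv.piFinSuccAbove, MeasurableEquiv.finTwoArrow,
    Fin.insertNthEquiv, Fin.insertNth, Fin.succAboveCases]

theorem norm_vec3 (a b c : ℝ) : ‖(!₂[a, b, c] : R3)‖ = √(a ^ 2 + b ^ 2 + c ^ 2) := by
  rw [EuclideanSpace.norm_eq]
  simp [Fin.sum_univ_three]

/-- radial integrals in the plane -/
theorem lintegral_plane {g : ℝ → ℝ≥0∞} (hg : Measurable g) (z : ℝ) :
    ∫⁻ p : ℝ × ℝ, g (√(p.1 ^ 2 + p.2 ^ 2 + z ^ 2))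
      = ENNReal.ofReal (2 * π)
        * ∫⁻ ρ in Ioi (0 : ℝ), ENNReal.ofReal ρ * g (√(ρ ^ 2 + z ^ 2)) := by
  rw [← _root_.lintegral_comp_polarCoord_symm]
  have e : ∀ p : ℝ × ℝ, ENNReal.ofReal p.1 • g (√((polarCoord.symm p).1 ^ 2
      + (polarCoord.symm p).2 ^ 2 + z ^ 2)) = ENNReal.ofReal p.1 * g (√(p.1 ^ 2 + z ^ 2)) := by
    intro p
    rw [smul_eq_mul, polarCoord_symm_apply]
    have : (p.1 * cos p.2) ^ 2 + (p.1 * sin p.2) ^ 2 = p.1 ^ 2 := by
      have := Real.cos_sq_add_sin_sq p.2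
      calc _ = p.1 ^ 2 * (cos p.2 ^ 2 + sin p.2 ^ 2) := by ring
        _ = _ := by rw [this, mul_one]
    simp only [this]
  simp only [e]
  rw [polarCoord_target, Measure.volume_eq_prod, ← Measure.prod_restrict]
  have hm : Measurable fun ρ : ℝ => ENNReal.ofReal ρ * g (√(ρ ^ 2 + z ^ 2)) := by
    apply ENNReal.measurable_ofReal.mul
    exact hg.comp (by fun_prop)
  have hm1 : Measurable fun p : ℝ × ℝ => ENNReal.ofReal p.1 * g (√(p.1 ^ 2 + z ^ 2)) :=
    hm.comp measurable_fst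
  rw [lintegral_prod _ hm1.aemeasurable]
  simp only [lintegral_const, Measure.restrict_apply MeasurableSet.univ, univ_inter, Real.volume_Ioo]
  rw [lintegral_mul_const _ hm, mul_comm]
  congr 2
  ring

theorem lintegral_subst_sqrt (g : ℝ → ℝ≥0∞) (z : ℝ) :
    ∫⁻ ρ in Ioi (0 : ℝ), ENNReal.ofReal ρ * g (√(ρ ^ 2 + z ^ 2))
      = ∫⁻ r in Ioi |z|, ENNReal.ofReal r * g r := by
  have himg : (fun ρ : ℝ => √(ρ ^ 2 + z ^ 2)) '' Ioi 0 = Ioi |z| := by
    ext r
    constructor
    · rintro ⟨ρ, hρ, rfl⟩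
      have hρ' : 0 < ρ := hρ
      rw [mem_Ioi, ← Real.sqrt_sq_eq_abs]
      apply Real.sqrt_lt_sqrt (sq_nonneg z)
      nlinarith
    · intro hr
      have hr' : |z| < r := hr
      have h0 : 0 ≤ |z| := abs_nonneg z
      have h1 : z ^ 2 < r ^ 2 := by
        rw [← sq_abs z]
        nlinarith
      refine ⟨√(r ^ 2 - z ^ 2), Real.sqrt_pos.2 (by linarith), ?_⟩
      simp only
      rw [Real.sq_sqrt (by linarith), sub_add_cancel, Real.sqrt_sq (by linarith)]
  rw [← himg, lintegral_image_eq_lintegral_abs_deriv_mul (f' := fun ρ => ρ / √(ρ ^ 2 + z ^ 2))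
    measurableSet_Ioi]
  · apply setLIntegral_congr_fun measurableSet_Ioi
    intro ρ hρ
    have hρ' : 0 < ρ := hρ
    have h1 : 0 < √(ρ ^ 2 + z ^ 2) := Real.sqrt_pos.2 (by positivity)
    simp only
    rw [← mul_assoc, ← ENNReal.ofReal_mul (abs_nonneg _), abs_of_nonneg (by positivity),
      div_mul_cancel₀ _ h1.ne']
  · intro ρ hρ
    have hρ' : 0 < ρ := hρ
    have h1 : ρ ^ 2 + z ^ 2 ≠ 0 := by positivity
    have h2 : HasDerivAt (fun ρ : ℝ => ρ ^ 2 + z ^ 2) (2 * ρ) ρ := by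
      have := (hasDerivAt_pow 2 ρ).add_const (z ^ 2)
      simpa using this
    have h3 := h2.sqrt h1
    refine (h3.congr_deriv ?_).hasDerivWithinAt
    rw [mul_div_mul_left _ _ two_ne_zero]
  · intro a ha b hb hab
    have ha' : 0 < a := ha
    have hb' : 0 < b := hb
    simp only at hab
    rw [Real.sqrt_inj (by positivity) (by positivity)] at hab
    have : a ^ 2 = b ^ 2 := by linarith
    exact (pow_left_inj₀ ha'.le hb'.le two_ne_zero).1 this

/-- cylindrical coordinates: the hat-box theorem -/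
theorem lintegral_cyl {F : ℝ → ℝ → ℝ≥0∞} (hF : Measurable (Function.uncurry F)) :
    ∫⁻ y : R3, F ‖y‖ (y 2) = ENNReal.ofReal (2 * π)
      * ∫⁻ r in Ioi (0 : ℝ), ENNReal.ofReal r * ∫⁻ z in Ioo (-r) r, F r z := by
  have hG : Measurable fun y : R3 => F ‖y‖ (y 2) := by
    have : Measurable fun y : R3 => (‖y‖, y 2) := by fun_prop
    exact hF.comp this
  rw [lintegral_slice _ hG]
  have h1 : ∀ z : ℝ, ∫⁻ p : ℝ × ℝ, F ‖(!₂[p.1, p.2, z] : R3)‖ ((!₂[p.1, p.2, z] : R3) 2)
      = ENNReal.ofReal (2 * π) * ∫⁻ r in Ioi |z|, ENNReal.ofReal r * F r z := by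
    intro z
    have hz : Measurable fun r => F r z := hF.comp (measurable_id.prodMk measurable_const)
    rw [← lintegral_subst_sqrt, ← lintegral_plane hz]
    apply lintegral_congr
    intro p
    rw [norm_vec3]
    simp
  simp only [h1]
  have hm : Measurable fun q : ℝ × ℝ => ENNReal.ofReal q.2 * F q.2 q.1 :=
    (ENNReal.measurable_ofReal.comp measurable_snd).mul (hF.comp measurable_swap)
  have hS : MeasurableSet {q : ℝ × ℝ | |q.1| < q.2} :=
    measurableSet_lt (by fun_prop) (by fun_prop)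
  have h2 : ∀ z : ℝ, ∫⁻ r in Ioi |z|, ENNReal.ofReal r * F r z
      = ∫⁻ r : ℝ, {q : ℝ × ℝ | |q.1| < q.2}.indicator (fun q => ENNReal.ofReal q.2 * F q.2 q.1)
        (z, r) := by
    intro z
    rw [← lintegral_indicator measurableSet_Ioi]
    rfl
  simp only [h2]
  rw [lintegral_const_mul' _ _ ENNReal.ofReal_ne_top]
  congr 1
  rw [lintegral_lintegral_swap]
  · rw [← lintegral_indicator measurableSet_Ioi]
    apply lintegral_congr
    intro r
    by_cases hr : 0 < r
    · rw [indicator_of_mem (by exact hr), ← lintegral_const_mul' _ _ ENNReal.ofReal_ne_top,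
        ← lintegral_indicator measurableSet_Ioo]
      apply lintegral_congr
      intro z
      by_cases hz : |z| < r
      · rw [indicator_of_mem (by exact hz), indicator_of_mem (by exact abs_lt.1 hz)]
      · rw [indicator_of_notMem (by exact hz),
          indicator_of_notMem (by exact fun h => hz (abs_lt.2 h))]
    · rw [indicator_of_notMem (by exact hr)]
      rw [lintegral_eq_zero_of_ae_eq_zero]
      filter_upwards with z
      rw [indicator_of_notMem]
      · rfl
      · intro h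
        exact hr ((abs_nonneg z).trans_lt h)
  · exact (hm.indicator hS).aemeasurable

theorem lintegral_subst_bip {r r' : ℝ} (hr : 0 < r) (hr' : 0 < r') (h : ℝ → ℝ≥0∞) :
    ∫⁻ z in Ioo (-r') r', h (√(r' ^ 2 + r ^ 2 - 2 * r * z))
      = ∫⁻ s in Ioo |r - r'| (r + r'), ENNReal.ofReal (s / r) * h s := by
  have hpos : ∀ s ∈ Ioo |r - r'| (r + r'), 0 < s := fun s hs => (abs_nonneg _).trans_lt hs.1
  have himg : (fun s : ℝ => (r' ^ 2 + r ^ 2 - s ^ 2) / (2 * r)) '' Ioo |r - r'| (r + r')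
      = Ioo (-r') r' := by
    ext z
    constructor
    · rintro ⟨s, hs, rfl⟩
      have h1 := hpos s hs
      have h2 := abs_lt.1 hs.1
      constructor
      · rw [lt_div_iff₀ (by positivity)]
        nlinarith [hs.2, hs.1]
      · rw [div_lt_iff₀ (by positivity)]
        nlinarith [h2.1, h2.2]
    · intro hz
      have h1 : 0 < r' ^ 2 + r ^ 2 - 2 * r * z := by nlinarith [hz.1, hz.2, sq_nonneg (r - r')]
      refine ⟨√(r' ^ 2 + r ^ 2 - 2 * r * z), ⟨?_, ?_⟩, ?_⟩
      · rw [← Real.sqrt_sq_eq_abs]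
        apply Real.sqrt_lt_sqrt (sq_nonneg _)
        nlinarith [hz.1, hz.2]
      · rw [Real.sqrt_lt' (by positivity)]
        nlinarith [hz.1, hz.2]
      · simp only
        rw [Real.sq_sqrt h1.le]
        field_simp
        ring
  rw [← himg, lintegral_image_eq_lintegral_abs_deriv_mul (f' := fun s => -(s / r))
    measurableSet_Ioo]
  · apply setLIntegral_congr_fun measurableSet_Ioo
    intro s hs
    have h1 := hpos s hs
    simp only
    rw [abs_neg, abs_of_nonneg (by positivity)]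
    congr 2
    have : r' ^ 2 + r ^ 2 - 2 * r * ((r' ^ 2 + r ^ 2 - s ^ 2) / (2 * r)) = s ^ 2 := by
      field_simp
      ring
    rw [this, Real.sqrt_sq h1.le]
  · intro s hs
    have h2 : HasDerivAt (fun s : ℝ => (r' ^ 2 + r ^ 2 - s ^ 2) / (2 * r))
        (-(2 * s) / (2 * r)) s := by
      have := ((hasDerivAt_pow 2 s).const_sub (r' ^ 2 + r ^ 2)).div_const (2 * r)
      simpa using this
    refine (h2.congr_deriv ?_).hasDerivWithinAt
    rw [neg_div, mul_div_mul_left _ _ two_ne_zero]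
  · intro a ha b hb hab
    have ha' := hpos a ha
    have hb' := hpos b hb
    simp only at hab
    have h2 : a ^ 2 = b ^ 2 := by
      field_simp at hab
      linarith
    exact (pow_left_inj₀ ha'.le hb'.le two_ne_zero).1 h2

/-- bipolar coordinates -/
theorem lintegral_bip {F : ℝ → ℝ → ℝ≥0∞} (hF : Measurable (Function.uncurry F)) {x : R3}
    (hx : x ≠ 0) :
    ∫⁻ y : R3, F ‖y‖ ‖x - y‖ = ENNReal.ofReal (2 * π / ‖x‖)
      * ∫⁻ r in Ioi (0 : ℝ), ENNReal.ofReal r
        * ∫⁻ s in Ioo |‖x‖ - r| (‖x‖ + r), ENNReal.ofReal s * F r s := by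
  have hr : 0 < ‖x‖ := norm_pos_iff.2 hx
  set R := ‖x‖ with hR
  -- rotate `x` to the third axis
  set e : R3 := !₂[0, 0, R] with he
  have hne : ‖e‖ = R := by
    rw [he, norm_vec3]
    simp [Real.sqrt_sq hr.le]
  have hrot : Submodule.reflection (ℝ ∙ (e - x))ᗮ e = x :=
    Submodule.reflection_sub (by rw [hne])
  set T := Submodule.reflection (ℝ ∙ (e - x))ᗮ with hT
  have hG : Measurable fun y : R3 => F ‖y‖ ‖x - y‖ := by
    have : Measurable fun y : R3 => (‖y‖, ‖x - y‖) := by fun_prop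
    exact hF.comp this
  have h1 : ∫⁻ y : R3, F ‖y‖ ‖x - y‖ = ∫⁻ y : R3, F ‖y‖ ‖e - y‖ := by
    rw [← T.measurePreserving.lintegral_comp hG]
    apply lintegral_congr
    intro y
    rw [T.norm_map, ← hrot, ← map_sub, T.norm_map]
  have h2 : ∀ y : R3, ‖e - y‖ = √(‖y‖ ^ 2 + R ^ 2 - 2 * R * y 2) := by
    intro y
    rw [EuclideanSpace.norm_eq, EuclideanSpace.norm_eq, Real.sq_sqrt (by positivity)]
    congr 1
    simp [Fin.sum_univ_three, he, sq_abs]
    ring
  rw [h1]
  simp only [h2]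
  have hF2 : Measurable (Function.uncurry fun r z => F r (√(r ^ 2 + R ^ 2 - 2 * R * z))) := by
    have : Measurable fun q : ℝ × ℝ => (q.1, √(q.1 ^ 2 + R ^ 2 - 2 * R * q.2)) := by fun_prop
    exact hF.comp this
  rw [lintegral_cyl hF2]
  have h3 : ENNReal.ofReal (2 * π / R) = ENNReal.ofReal (2 * π) * ENNReal.ofReal (1 / R) := by
    rw [← ENNReal.ofReal_mul (by positivity)]
    congr 1
    ring
  rw [h3, mul_assoc]
  congr 1
  rw [← lintegral_const_mul' _ _ ENNReal.ofReal_ne_top]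
  apply setLIntegral_congr_fun measurableSet_Ioi
  intro r hr'
  simp only
  rw [lintegral_subst_bip hr hr', mul_left_comm]
  congr 1
  rw [← lintegral_const_mul' _ _ ENNReal.ofReal_ne_top]
  apply lintegral_congr
  intro s
  rw [← mul_assoc, ← ENNReal.ofReal_mul (by positivity)]
  congr 2
  ring

end

end Vale.Agent.P370.H32
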