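import Vale.Agent.P363.H849.Space

/-!
# The closed form of the hydrogenic shell kernel (definitions)

`L_n(w) = ∑_{i ≤ n} a_i w^i`, `a_i = (-1)^i (n choose i) / (i! n^i)` (the Laguerre polynomial in the
variable `w / n`), `f_n(w) = w L_n'(w) e^{-w/(2n)}`.  With `u = |x| + |y| + |x-y|`,
`v = |x| + |y| - |x-y|` the kernel of the orthogonal projection on the `n`-th shell is

`K_n(x,y) = (f_n(u) f_n'(v) - f_n'(u) f_n(v)) / (π A₀ |x - y|)`, `A₀ = ∫₀^∞ f_n²`.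
-/

namespace Vale.Agent.P370.H32

open MeasureTheory Set Real
open Vale.Agent.P363.H849 (R3)

noncomputable section

/-- coefficients of the Laguerre polynomial `L_n(w / n)` -/
def aQ (n : ℕ) : ℕ → ℚ
  | 0 => 1
  | i + 1 => ((i : ℚ) / n - 1) * aQ n i / ((i : ℚ) + 1) ^ 2

/-- the polynomial `L_n(w / n)` -/
def Lp (n : ℕ) : Polynomial ℝ := ∑ i ∈ Finset.range (n + 1), Polynomial.C ((aQ n i : ℚ) : ℝ) * Polynomial.X ^ i

/-- the `s`-wave function `f_n(w) = w L_n'(w) e^{-w/(2n)}` -/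
def fR (n : ℕ) (w : ℝ) : ℝ := w * (Lp n).derivative.eval w * exp (-(w / (2 * n)))

/-- the derivative of `f_n` -/
def fR' (n : ℕ) (w : ℝ) : ℝ :=
  (w / (2 * n) * (Lp n).derivative.eval w - (Lp n).eval w) * exp (-(w / (2 * n)))

/-- `A₀ = ∫₀^∞ f_n²` -/
def A0 (n : ℕ) : ℝ := ∫ w in Ioi (0 : ℝ), fR n w ^ 2

/-- complete homogeneous symmetric polynomial `h_m(u,v) = ∑_{l ≤ m} u^l v^{m-l}` -/
def hsym (m : ℕ) (u v : ℝ) : ℝ := ∑ l ∈ Finset.range (m + 1), u ^ l * v ^ (m - l)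

/-- the symmetric polynomial `S_n(u,v) = (v L'(v) L(u) - u L'(u) L(v)) / (u - v)` -/
def Ssym (n : ℕ) (u v : ℝ) : ℝ :=
  -∑ j ∈ Finset.range (n + 1), ∑ i ∈ Finset.range j,
    ((j : ℝ) - i) * ((aQ n i : ℚ) : ℝ) * ((aQ n j : ℚ) : ℝ) * (u * v) ^ i * hsym (j - i - 1) u v

/-- `u = |x| + |y| + |x-y|` -/
def uu (x y : R3) : ℝ := ‖x‖ + ‖y‖ + ‖x - y‖

/-- `v = |x| + |y| - |x-y|` -/
def vv (x y : R3) : ℝ := ‖x‖ + ‖y‖ - ‖x - y‖

/-- the shell kernel -/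
def KK (n : ℕ) (x y : R3) : ℝ :=
  2 / (π * A0 n) * Ssym n (uu x y) (vv x y) * exp (-((‖x‖ + ‖y‖) / n))

end

end Vale.Agent.P370.H32
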