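import Vale.Agent.P370.H32.Cyl

/-! Triangle coordinates on `ℝ³ × ℝ³`. -/

namespace Vale.Agent.P370.H32

open MeasureTheory Set Real
open scoped ENNReal
open Vale.Agent.P363.H849 (R3)

noncomputable section

theorem lintegral_rad3 {f : ℝ → ℝ≥0∞} (hf : Measurable f) :
    ∫⁻ x : R3, f ‖x‖ = ENNReal.ofReal (4 * π)
      * ∫⁻ r in Ioi (0 : ℝ), ENNReal.ofReal (r ^ 2) * f r := by
  have hF : Measurable (Function.uncurry fun r (_ : ℝ) => f r) := hf.comp measurable_fst
  rw [lintegral_cyl hF]
  have h3 : ENNReal.ofReal (4 * π) = ENNReal.ofReal (2 * π) * ENNReal.ofReal 2 := by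
    rw [← ENNReal.ofReal_mul (by positivity)]
    congr 1
    ring
  rw [h3, mul_assoc]
  congr 1
  rw [← lintegral_const_mul' _ _ ENNReal.ofReal_ne_top]
  apply setLIntegral_congr_fun measurableSet_Ioi
  intro r hr
  have hr' : 0 < r := hr
  simp only [lintegral_const, Measure.restrict_apply MeasurableSet.univ, univ_inter, Real.volume_Ioo]
  rw [← mul_assoc (ENNReal.ofReal 2), ← ENNReal.ofReal_mul (by positivity),
    mul_comm (f r), ← mul_assoc, ← ENNReal.ofReal_mul (by positivity)]
  congr 2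
  ring

/-- the region of triangle coordinates `(σ, s, δ)` -/
def Reg : Set (ℝ × ℝ × ℝ) := {q | |q.2.2| < q.2.1 ∧ q.2.1 < q.1}

theorem measurableSet_Reg : MeasurableSet Reg := by
  have h1 : MeasurableSet {q : ℝ × ℝ × ℝ | |q.2.2| < q.2.1} :=
    measurableSet_lt (by fun_prop) (by fun_prop)
  have h2 : MeasurableSet {q : ℝ × ℝ × ℝ | q.2.1 < q.1} :=
    measurableSet_lt (by fun_prop) (by fun_prop)
  exact h1.inter h2

/-- triangle coordinates -/
def tri (p : R3 × R3) : ℝ × ℝ × ℝ := (‖p.1‖ + ‖p.2‖, ‖p.1 - p.2‖, ‖p.1‖ - ‖p.2‖)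

theorem measurable_tri : Measurable tri := by
  unfold tri
  fun_prop

/-- the density -/
def wt (q : ℝ × ℝ × ℝ) : ℝ := π ^ 2 * q.2.1 * (q.1 ^ 2 - q.2.2 ^ 2)

theorem measurable_wt : Measurable wt := by
  unfold wt
  fun_prop

theorem wt_nonneg {q : ℝ × ℝ × ℝ} (hq : q ∈ Reg) : 0 ≤ wt q := by
  have h1 := hq.1
  have h2 := hq.2
  have h3 := abs_nonneg q.2.2
  have h4 : q.2.2 ^ 2 ≤ q.1 ^ 2 := by
    rw [← sq_abs q.2.2]
    exact pow_le_pow_left₀ h3 (h1.trans h2).le 2
  unfold wt
  have : 0 ≤ q.1 ^ 2 - q.2.2 ^ 2 := by linarith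
  have h5 : 0 ≤ q.2.1 := h3.trans h1.le
  positivity

theorem lintegral_half (g : ℝ → ℝ≥0∞) (c : ℝ) :
    ∫⁻ r, g r = ∫⁻ d, ENNReal.ofReal (1 / 2) * g ((c + d) / 2) := by
  have himg : (fun d : ℝ => (c + d) / 2) '' univ = univ := by
    rw [image_univ, range_eq_univ]
    intro r
    exact ⟨2 * r - c, by ring⟩
  have h := lintegral_image_eq_lintegral_abs_deriv_mul (f := fun d : ℝ => (c + d) / 2)
    (f' := fun _ => 1 / 2) (s := univ) MeasurableSet.univ (fun d _ => by
      have h2 := ((hasDerivAt_id d).const_add c).div_const 2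
      exact h2.hasDerivWithinAt) (fun a _ b _ hab => by
      simp only at hab
      linarith) g
  rw [himg] at h
  simp only [Measure.restrict_univ] at h
  rw [h]
  apply lintegral_congr
  intro d
  rw [abs_of_pos (by norm_num)]

theorem lintegral_sumdiff {G : ℝ × ℝ → ℝ≥0∞} (hG : Measurable G) :
    ∫⁻ r, ∫⁻ r', G (r, r') = ∫⁻ σ, ∫⁻ d, ENNReal.ofReal (1 / 2) * G ((σ + d) / 2, (σ - d) / 2) := by
  have h1 : ∀ r : ℝ, ∫⁻ r', G (r, r') = ∫⁻ σ, G (r, σ - r) := fun r =>
    (lintegral_sub_right_eq_self (fun σ => G (r, σ)) r).symm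
  simp only [h1]
  rw [lintegral_lintegral_swap]
  · apply lintegral_congr
    intro σ
    rw [lintegral_half _ σ]
    apply lintegral_congr
    intro d
    congr 3
    ring
  · have : Measurable fun q : ℝ × ℝ => (q.1, q.2 - q.1) := by fun_prop
    exact (hG.comp this).aemeasurable

/-- the integrand in triangle coordinates -/
def Htri (F : ℝ × ℝ × ℝ → ℝ≥0∞) : ℝ × ℝ × ℝ → ℝ≥0∞ :=
  Reg.indicator fun q => ENNReal.ofReal (wt q) * F q

theorem measurable_Htri {F : ℝ × ℝ × ℝ → ℝ≥0∞} (hF : Measurable F) : Measurable (Htri F) :=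
  ((ENNReal.measurable_ofReal.comp measurable_wt).mul hF).indicator measurableSet_Reg

theorem lintegral_tri {F : ℝ × ℝ × ℝ → ℝ≥0∞} (hF : Measurable F) :
    ∫⁻ p : R3 × R3, F (tri p) = ∫⁻ q in Reg, ENNReal.ofReal (wt q) * F q := by
  have hH := measurable_Htri hF
  have hmt : Measurable fun p : R3 × R3 => F (tri p) := hF.comp measurable_tri
  rw [← lintegral_indicator measurableSet_Reg]
  change _ = ∫⁻ q, Htri F q
  rw [Measure.volume_eq_prod, lintegral_prod _ hmt.aemeasurable]
  -- the inner integral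
  have hin : ∀ x : R3, x ≠ 0 → ∫⁻ y, F (tri (x, y)) = ENNReal.ofReal (2 * π / ‖x‖)
      * ∫⁻ r in Ioi (0 : ℝ), ENNReal.ofReal r
        * ∫⁻ s in Ioo |‖x‖ - r| (‖x‖ + r), ENNReal.ofReal s * F (‖x‖ + r, s, ‖x‖ - r) := by
    intro x hx
    have hFx : Measurable (Function.uncurry fun r s => F (‖x‖ + r, s, ‖x‖ - r)) := by
      have : Measurable fun q : ℝ × ℝ => (‖x‖ + q.1, q.2, ‖x‖ - q.1) := by fun_prop
      exact hF.comp this
    exact lintegral_bip hFx hx
  set J : ℝ → ℝ≥0∞ := fun R => ∫⁻ r : ℝ, ∫⁻ s : ℝ, ENNReal.ofReal 2 * Htri F (R + r, s, R - r) with hJ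
  have hJm : Measurable J := by
    have h1 : Measurable fun q : (ℝ × ℝ) × ℝ =>
        ENNReal.ofReal 2 * Htri F (q.1.1 + q.1.2, q.2, q.1.1 - q.1.2) := by
      have : Measurable fun q : (ℝ × ℝ) × ℝ => (q.1.1 + q.1.2, q.2, q.1.1 - q.1.2) := by fun_prop
      exact (hH.comp this).const_mul _
    have h2 : Measurable fun q : ℝ × ℝ => ∫⁻ s, ENNReal.ofReal 2 * Htri F (q.1 + q.2, s, q.1 - q.2) :=
      h1.lintegral_prod_right'
    exact h2.lintegral_prod_right'
  have key : ∀ R : ℝ, 0 < R → ENNReal.ofReal (4 * π * R ^ 2) * (ENNReal.ofReal (2 * π / R)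
      * ∫⁻ r in Ioi (0 : ℝ), ENNReal.ofReal r
        * ∫⁻ s in Ioo |R - r| (R + r), ENNReal.ofReal s * F (R + r, s, R - r)) = J R := by
    intro R hR
    rw [← mul_assoc, ← ENNReal.ofReal_mul (by positivity), hJ, ← lintegral_indicator measurableSet_Ioi,
      ← lintegral_const_mul' _ _ ENNReal.ofReal_ne_top]
    apply lintegral_congr
    intro r
    by_cases hr : 0 < r
    · rw [indicator_of_mem (by exact hr), ← mul_assoc, ← ENNReal.ofReal_mul (by positivity),
        ← lintegral_indicator measurableSet_Ioo, ← lintegral_const_mul' _ _ ENNReal.ofReal_ne_top]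
      apply lintegral_congr
      intro s
      by_cases hs : s ∈ Ioo |R - r| (R + r)
      · have hs0 : 0 < s := (abs_nonneg _).trans_lt hs.1
        rw [indicator_of_mem hs, Htri, indicator_of_mem (by exact hs), ← mul_assoc, ← mul_assoc,
          ← ENNReal.ofReal_mul (by positivity), ← ENNReal.ofReal_mul (by positivity)]
        congr 2
        unfold wt
        field_simp
        ring
      · rw [indicator_of_notMem hs, Htri, indicator_of_notMem (by exact hs), mul_zero, mul_zero]
    · rw [indicator_of_notMem (by exact hr), mul_zero]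
      symm
      rw [lintegral_eq_zero_of_ae_eq_zero]
      filter_upwards with s
      rw [Htri, indicator_of_notMem]
      · rw [mul_zero]; rfl
      · rintro ⟨h1, h2⟩
        simp only at h1 h2
        have := le_abs_self (R - r)
        linarith
  have hf : Measurable fun R : ℝ => ENNReal.ofReal (1 / (4 * π * R ^ 2)) * J R :=
    (ENNReal.measurable_ofReal.comp (by fun_prop)).mul hJm
  have hae : ∀ᵐ x : R3, ∫⁻ y, F (tri (x, y)) = ENNReal.ofReal (1 / (4 * π * ‖x‖ ^ 2)) * J ‖x‖ := by
    have h0 : ∀ᵐ x : R3, x ≠ 0 := by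
      rw [ae_iff]
      simp
    filter_upwards [h0] with x hx
    have hR : 0 < ‖x‖ := norm_pos_iff.2 hx
    rw [hin x hx, ← key _ hR, ← mul_assoc (ENNReal.ofReal (1 / (4 * π * ‖x‖ ^ 2))),
      ← ENNReal.ofReal_mul (by positivity), one_div, inv_mul_cancel₀ (by positivity),
      ENNReal.ofReal_one, one_mul]
  rw [lintegral_congr_ae hae, lintegral_rad3 hf]
  have h5 : ENNReal.ofReal (4 * π) * ∫⁻ r in Ioi (0 : ℝ), ENNReal.ofReal (r ^ 2)
      * (ENNReal.ofReal (1 / (4 * π * r ^ 2)) * J r) = ∫⁻ r in Ioi (0 : ℝ), J r := by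
    rw [← lintegral_const_mul' _ _ ENNReal.ofReal_ne_top]
    apply setLIntegral_congr_fun measurableSet_Ioi
    intro r hr
    have hr' : 0 < r := hr
    simp only
    rw [← mul_assoc, ← mul_assoc, ← ENNReal.ofReal_mul (by positivity),
      ← ENNReal.ofReal_mul (by positivity)]
    have : 4 * π * r ^ 2 * (1 / (4 * π * r ^ 2)) = 1 := by field_simp
    rw [this, ENNReal.ofReal_one, one_mul]
  rw [h5]
  have h6 : ∫⁻ r in Ioi (0 : ℝ), J r = ∫⁻ r, J r := by
    rw [← lintegral_indicator measurableSet_Ioi]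
    apply lintegral_congr
    intro R
    by_cases hR : 0 < R
    · rw [indicator_of_mem (by exact hR)]
    · rw [indicator_of_notMem (by exact hR), hJ]
      symm
      simp only
      rw [lintegral_eq_zero_of_ae_eq_zero]
      filter_upwards with r
      rw [Pi.zero_apply, lintegral_eq_zero_of_ae_eq_zero]
      filter_upwards with s
      rw [Htri, indicator_of_notMem]
      · rw [mul_zero]; rfl
      · rintro ⟨h1, h2⟩
        simp only at h1 h2
        have := neg_abs_le (R - r)
        linarith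
  rw [h6, hJ]
  have hG : Measurable fun q : ℝ × ℝ => ∫⁻ s, ENNReal.ofReal 2 * Htri F (q.1 + q.2, s, q.1 - q.2) := by
    have h1 : Measurable fun q : (ℝ × ℝ) × ℝ =>
        ENNReal.ofReal 2 * Htri F (q.1.1 + q.1.2, q.2, q.1.1 - q.1.2) := by
      have : Measurable fun q : (ℝ × ℝ) × ℝ => (q.1.1 + q.1.2, q.2, q.1.1 - q.1.2) := by fun_prop
      exact (hH.comp this).const_mul _
    exact h1.lintegral_prod_right'
  rw [lintegral_sumdiff hG]
  rw [Measure.volume_eq_prod (ℝ) (ℝ × ℝ), lintegral_prod _ hH.aemeasurable]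
  apply lintegral_congr
  intro σ
  have h7 : ∀ d : ℝ, ENNReal.ofReal (1 / 2) * ∫⁻ s, ENNReal.ofReal 2
      * Htri F ((σ + d) / 2 + (σ - d) / 2, s, (σ + d) / 2 - (σ - d) / 2)
      = ∫⁻ s, Htri F (σ, s, d) := by
    intro d
    rw [← lintegral_const_mul' _ _ ENNReal.ofReal_ne_top]
    apply lintegral_congr
    intro s
    rw [← mul_assoc, ← ENNReal.ofReal_mul (by positivity)]
    have e1 : (1 / 2 : ℝ) * 2 = 1 := by norm_num
    have e2 : (σ + d) / 2 + (σ - d) / 2 = σ := by ring
    have e3 : (σ + d) / 2 - (σ - d) / 2 = d := by ring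
    rw [e1, e2, e3, ENNReal.ofReal_one, one_mul]
  simp only [h7]
  have hσ : Measurable fun q : ℝ × ℝ => Htri F (σ, q) := hH.comp (measurable_const.prodMk measurable_id)
  rw [Measure.volume_eq_prod, lintegral_prod _ hσ.aemeasurable]
  rw [lintegral_lintegral_swap]
  have : Measurable fun q : ℝ × ℝ => (σ, q.2, q.1) := by fun_prop
  exact (hH.comp this).aemeasurable

/-- the triangle coordinates as an equality of measures -/
theorem map_tri : Measure.map tri (volume : Measure (R3 × R3))
    = (volume.restrict Reg).withDensity fun q => ENNReal.ofReal (wt q) := by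
  ext S hS
  rw [Measure.map_apply measurable_tri hS, withDensity_apply _ hS]
  have h := lintegral_tri (F := S.indicator 1) (measurable_one.indicator hS)
  have h1 : ∫⁻ p : R3 × R3, S.indicator 1 (tri p) = volume (tri ⁻¹' S) := by
    rw [← lintegral_indicator_one (measurable_tri hS)]
    rfl
  rw [← h1, h, ← lintegral_indicator hS]
  apply lintegral_congr
  intro q
  by_cases hq : q ∈ S
  · simp [hq]
  · simp [hq]

theorem integrable_tri {F : ℝ × ℝ × ℝ → ℝ} (hF : Measurable F) :
    Integrable (fun p : R3 × R3 => F (tri p)) ↔ IntegrableOn (fun q => wt q * F q) Reg := by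
  have h1 : Integrable (fun p : R3 × R3 => F (tri p))
      ↔ Integrable F (Measure.map tri (volume : Measure (R3 × R3))) :=
    (integrable_map_measure hF.aestronglyMeasurable measurable_tri.aemeasurable).symm
  have hm : Measurable fun q => ENNReal.ofReal (wt q) := ENNReal.measurable_ofReal.comp measurable_wt
  rw [h1, map_tri, integrable_withDensity_iff_integrable_smul' hm (by filter_upwards with q; simp)]
  apply integrable_congr
  filter_upwards [ae_restrict_mem measurableSet_Reg] with q hq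
  rw [ENNReal.toReal_ofReal (wt_nonneg hq), smul_eq_mul]

theorem integral_tri {F : ℝ × ℝ × ℝ → ℝ} (hF : Measurable F) :
    ∫ p : R3 × R3, F (tri p) = ∫ q in Reg, wt q * F q := by
  have hm : Measurable fun q => ENNReal.ofReal (wt q) := ENNReal.measurable_ofReal.comp measurable_wt
  rw [← integral_map measurable_tri.aemeasurable hF.aestronglyMeasurable, map_tri,
    integral_withDensity_eq_integral_toReal_smul hm (by filter_upwards with q; simp)]
  apply setIntegral_congr_fun measurableSet_Reg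
  intro q hq
  simp only
  rw [ENNReal.toReal_ofReal (wt_nonneg hq), smul_eq_mul]

end

end Vale.Agent.P370.H32
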