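import Vale.Agent.P370.H32.Rad
import Vale.Agent.P370.H32.Tri
import Vale.Agent.P370.H546.Shell
import Vale.Agent.P370.H624.Basis

/-! The closed form of the kernel of the projection on a hydrogenic shell. -/

namespace Vale.Agent.P370.H32

open MeasureTheory Set Real Filter Topology
open scoped ENNReal
open Vale.Agent.P363.H849
open Vale.Agent.P370.H624 (Shell ShellP mem_ShellP sk sk_pos Shell_def shell_expand)
open Vale.Agent.P370.H546 (KK_shell Ssym_mul)

noncomputable section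

/-! ### linear algebra -/

theorem uu_comm (x y : R3) : uu x y = uu y x := by
  unfold uu
  rw [norm_sub_rev, add_comm ‖x‖]

theorem vv_comm (x y : R3) : vv x y = vv y x := by
  unfold vv
  rw [norm_sub_rev, add_comm ‖x‖]

theorem KK_comm (n : ℕ) (x y : R3) : KK n x y = KK n y x := by
  unfold KK
  rw [uu_comm, vv_comm, add_comm ‖x‖]

theorem exists_elt (j : ℕ) (y : R3) : ∃ k ∈ Shell j, ∀ x, k.1.1 x = KK (j + 1) x y := by
  obtain ⟨w, hw, hK, h⟩ := KK_shell (n := j + 1) (by omega) y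
  have hs : sk j = 1 / ((j + 1 : ℕ) : ℝ) := by
    unfold sk
    push_cast
    rfl
  rw [← hs] at hK h
  exact ⟨Phi (sk_pos j) w, Submodule.mem_map_of_mem (mem_ShellP.2 ⟨hw, hK⟩), h⟩

variable {j : ℕ} {ι : Type*} [Fintype ι] [DecidableEq ι]

/-- values of a linear combination -/
theorem sum_val (w : ι → H1) (c : ι → ℝ) (x : R3) :
    (∑ i, c i • w i).1.1 x = ∑ i, c i * (w i).1.1 x := by
  have h : ∀ s : Finset ι, (∑ i ∈ s, c i • w i).1.1 x = ∑ i ∈ s, c i * (w i).1.1 x := by
    intro s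
    induction s using Finset.induction_on with
    | empty => simp
    | insert a s ha ih =>
      rw [Finset.sum_insert ha, Finset.sum_insert ha, ← ih]
      simp
  exact h _

theorem span_vals (w : ι → H1) (ho : ∀ i k, ip (w i) (w k) = if i = k then 1 else 0) :
    Submodule.span ℝ (Set.range fun x : R3 => fun i => (w i).1.1 x) = ⊤ := by
  by_contra hne
  obtain ⟨f, hf, hle⟩ := Submodule.exists_le_ker_of_lt_top _ (lt_top_iff_ne_top.2 hne)
  apply hf
  set b : ι → ℝ := fun i => f (Pi.single i 1) with hb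
  have hfb : ∀ a : ι → ℝ, f a = ∑ i, b i * a i := by
    intro a
    rw [LinearMap.pi_apply_eq_sum_univ f a]
    apply Finset.sum_congr rfl
    intro i _
    rw [smul_eq_mul, mul_comm, hb]
    congr 2
    funext k
    simp [Pi.single_apply, eq_comm]
  have h0 : ∀ x, (∑ i, b i • w i).1.1 x = 0 := by
    intro x
    rw [sum_val, ← hfb fun i => (w i).1.1 x]
    exact hle (Submodule.subset_span ⟨x, rfl⟩)
  have h1 : ∀ k, b k = 0 := by
    intro k
    have h2 : ip (∑ i, b i • w i) (w k) = b k := by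
      rw [map_sum, LinearMap.sum_apply]
      simp [ho]
    rw [← h2]
    have h3 : ip (∑ i, b i • w i) (w k) = ∫ x, (∑ i, b i • w i).1.1 x * (w k).1.1 x := rfl
    rw [h3]
    simp only [h0, zero_mul, integral_zero]
  ext a
  simp [hfb, h1]

theorem exists_matrix (hcard : Fintype.card ι = (j + 1) ^ 2) (w : ι → H1)
    (hw : ∀ i, w i ∈ Shell j) (ho : ∀ i k, ip (w i) (w k) = if i = k then 1 else 0) :
    ∃ C : ι → ι → ℝ, ∀ x y, KK (j + 1) x y = ∑ i, ∑ k, C i k * ((w i).1.1 x * (w k).1.1 y) := by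
  choose e he hev using exists_elt j
  have hexp : ∀ x y, KK (j + 1) x y = ∑ i, ip (e y) (w i) * (w i).1.1 x := by
    intro x y
    rw [← hev y x]
    conv_lhs => rw [shell_expand hcard w hw ho (he y)]
    rw [sum_val]
  have hP : ∀ a : ι → ℝ, ∃ C : ι → ℝ, ∀ y, ∑ i, ip (e y) (w i) * a i = ∑ k, C k * (w k).1.1 y := by
    intro a
    have ha : a ∈ Submodule.span ℝ (Set.range fun x : R3 => fun i => (w i).1.1 x) := by
      rw [span_vals w ho]; trivial
    induction ha using Submodule.span_induction with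
    | mem a h =>
      obtain ⟨x, rfl⟩ := h
      refine ⟨fun k => ip (e x) (w k), fun y => ?_⟩
      rw [← hexp y x, KK_comm, hexp x y]
    | zero => exact ⟨0, fun y => by simp⟩
    | add a b _ _ iha ihb =>
      obtain ⟨C, hC⟩ := iha
      obtain ⟨D, hD⟩ := ihb
      refine ⟨C + D, fun y => ?_⟩
      simp only [Pi.add_apply, mul_add, add_mul, Finset.sum_add_distrib, hC, hD]
    | smul c a _ iha =>
      obtain ⟨C, hC⟩ := iha
      refine ⟨c • C, fun y => ?_⟩
      simp only [Pi.smul_apply, smul_eq_mul, mul_assoc, ← Finset.mul_sum, ← hC]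
      rw [Finset.mul_sum]
      apply Finset.sum_congr rfl
      intro i _
      ring
  choose C hC using fun i => hP (Pi.single i 1)
  refine ⟨C, fun x y => ?_⟩
  rw [hexp]
  apply Finset.sum_congr rfl
  intro i _
  have h1 := hC i y
  have h2 : ∑ k, ip (e y) (w k) * (Pi.single i (1 : ℝ) : ι → ℝ) k = ip (e y) (w i) := by
    simp [Pi.single_apply]
  rw [h2] at h1
  rw [h1, Finset.sum_mul]
  apply Finset.sum_congr rfl
  intro k _
  ring

theorem int_val (u v : H1) : Integrable (fun x => u.1.1 x * v.1.1 x) :=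
  (m1 u).integrable_mul (m1 v)

theorem trace_eq (w : ι → H1) (ho : ∀ i k, ip (w i) (w k) = if i = k then 1 else 0)
    (C : ι → ι → ℝ) :
    ∫ x, ∑ i, ∑ k, C i k * ((w i).1.1 x * (w k).1.1 x) = ∑ i, C i i := by
  rw [integral_finsetSum _ fun i _ => integrable_finsetSum _ fun k _ =>
    (int_val (w i) (w k)).const_mul _]
  apply Finset.sum_congr rfl
  intro i _
  rw [integral_finsetSum _ fun k _ => (int_val (w i) (w k)).const_mul _]
  have h : ∀ k, ∫ x, C i k * ((w i).1.1 x * (w k).1.1 x) = C i k * if i = k then 1 else 0 := by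
    intro k
    rw [integral_const_mul, ← ho i k]
    rfl
  simp [h]

theorem hs_eq (w : ι → H1) (ho : ∀ i k, ip (w i) (w k) = if i = k then 1 else 0)
    (C : ι → ι → ℝ) :
    ∫ p : R3 × R3, (∑ i, ∑ k, C i k * ((w i).1.1 p.1 * (w k).1.1 p.2)) ^ 2
      = ∑ i, ∑ k, C i k ^ 2 := by
  -- orthonormality of the products
  have e1 : ∀ a b : ι × ι, (fun p : R3 × R3 => (w a.1).1.1 p.1 * (w a.2).1.1 p.2
      * ((w b.1).1.1 p.1 * (w b.2).1.1 p.2)) = fun p : R3 × R3 =>
      ((w a.1).1.1 p.1 * (w b.1).1.1 p.1) * ((w a.2).1.1 p.2 * (w b.2).1.1 p.2) := by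
    intro a b
    funext p
    ring
  have hi : ∀ a b : ι × ι, Integrable (fun p : R3 × R3 => (w a.1).1.1 p.1 * (w a.2).1.1 p.2
      * ((w b.1).1.1 p.1 * (w b.2).1.1 p.2)) := by
    intro a b
    rw [e1]
    exact (int_val (w a.1) (w b.1)).mul_prod (int_val (w a.2) (w b.2))
  have hv : ∀ a b : ι × ι, ∫ p : R3 × R3, (w a.1).1.1 p.1 * (w a.2).1.1 p.2
      * ((w b.1).1.1 p.1 * (w b.2).1.1 p.2) = if a = b then 1 else 0 := by
    intro a b
    rw [e1]
    rw [Measure.volume_eq_prod]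
    rw [integral_prod_mul (fun x => (w a.1).1.1 x * (w b.1).1.1 x)
      (fun y => (w a.2).1.1 y * (w b.2).1.1 y)]
    have h1 : ∫ x, (w a.1).1.1 x * (w b.1).1.1 x = if a.1 = b.1 then 1 else 0 := ho _ _
    have h2 : ∫ x, (w a.2).1.1 x * (w b.2).1.1 x = if a.2 = b.2 then 1 else 0 := ho _ _
    rw [h1, h2]
    by_cases h3 : a.1 = b.1 <;> by_cases h4 : a.2 = b.2 <;> simp [h3, h4, Prod.ext_iff]
  have e2 : ∀ p : R3 × R3, (∑ i, ∑ k, C i k * ((w i).1.1 p.1 * (w k).1.1 p.2)) ^ 2
      = ∑ a : ι × ι, ∑ b : ι × ι, C a.1 a.2 * C b.1 b.2 *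
        ((w a.1).1.1 p.1 * (w a.2).1.1 p.2 * ((w b.1).1.1 p.1 * (w b.2).1.1 p.2)) := by
    intro p
    rw [← Fintype.sum_prod_type' (fun i k => C i k * ((w i).1.1 p.1 * (w k).1.1 p.2)), sq,
      Finset.sum_mul_sum]
    apply Finset.sum_congr rfl
    intro a _
    apply Finset.sum_congr rfl
    intro b _
    ring
  simp only [e2]
  rw [integral_finsetSum _ fun a _ => integrable_finsetSum _ fun b _ => (hi a b).const_mul _]
  rw [← Fintype.sum_prod_type' (fun i k => C i k ^ 2)]
  apply Finset.sum_congr rfl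
  intro a _
  rw [integral_finsetSum _ fun b _ => (hi a b).const_mul _]
  have h5 : ∀ b : ι × ι, ∫ p : R3 × R3, C a.1 a.2 * C b.1 b.2 *
      ((w a.1).1.1 p.1 * (w a.2).1.1 p.2 * ((w b.1).1.1 p.1 * (w b.2).1.1 p.2))
      = C a.1 a.2 * C b.1 b.2 * if a = b then 1 else 0 := by
    intro b
    rw [integral_const_mul, hv]
  simp only [h5]
  simp [sq]

/-- the kernel theorem, given the trace and the Hilbert-Schmidt norm -/
theorem shell_kernel_of (hcard : Fintype.card ι = (j + 1) ^ 2) (w : ι → H1)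
    (hw : ∀ i, w i ∈ Shell j) (ho : ∀ i k, ip (w i) (w k) = if i = k then 1 else 0)
    (ht : ∫ x, KK (j + 1) x x = ((j : ℝ) + 1) ^ 2)
    (hh : ∫ p : R3 × R3, KK (j + 1) p.1 p.2 ^ 2 = ((j : ℝ) + 1) ^ 2) (x y : R3) :
    ∑ i, (w i).1.1 x * (w i).1.1 y = KK (j + 1) x y := by
  obtain ⟨C, hC⟩ := exists_matrix hcard w hw ho
  simp only [hC] at ht hh
  rw [trace_eq w ho] at ht
  rw [hs_eq w ho] at hh
  have hz : ∑ i, ∑ k, (C i k - if i = k then 1 else 0) ^ 2 = 0 := by
    have e : ∀ i, ∑ k, (C i k - if i = k then 1 else 0) ^ 2 = (∑ k, C i k ^ 2) - 2 * C i i + 1 := by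
      intro i
      have e3 : ∀ k, (C i k - if i = k then 1 else 0) ^ 2
          = C i k ^ 2 + if i = k then (1 - 2 * C i k) else 0 := by
        intro k
        split_ifs <;> ring
      simp only [e3, Finset.sum_add_distrib, Finset.sum_ite_eq, Finset.mem_univ, if_true]
      ring
    simp only [e, Finset.sum_add_distrib, Finset.sum_sub_distrib, ← Finset.mul_sum, hh, ht]
    simp [hcard]
    ring
  have hCe : ∀ i k, C i k = if i = k then 1 else 0 := by
    intro i k
    have h1 := (Finset.sum_eq_zero_iff_of_nonneg fun i _ =>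
      Finset.sum_nonneg fun k _ => sq_nonneg _).1 hz i (Finset.mem_univ _)
    have h2 := (Finset.sum_eq_zero_iff_of_nonneg fun k _ => sq_nonneg _).1 h1 k (Finset.mem_univ _)
    have h3 := pow_eq_zero_iff (two_ne_zero) |>.1 h2
    linarith
  rw [hC]
  simp [hCe]

end

end Vale.Agent.P370.H32
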