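import Vale.Agent.P370.H32.Defs

/-! The radial function `f_n`: differential equation and moments. -/

namespace Vale.Agent.P370.H32

open MeasureTheory Set Real Filter Topology
open Vale.Agent.P363.H849 (R3)

noncomputable section

/-- real coefficients -/
def aR (n i : ℕ) : ℝ := ((aQ n i : ℚ) : ℝ)

theorem aR_zero (n : ℕ) : aR n 0 = 1 := by simp [aR, aQ]

theorem aR_succ (n i : ℕ) : ((i : ℝ) + 1) ^ 2 * aR n (i + 1) = ((i : ℝ) / n - 1) * aR n i := by
  have h : ((i : ℝ) + 1) ^ 2 ≠ 0 := by positivity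
  unfold aR
  rw [aQ]
  push_cast
  field_simp

theorem aR_eq_zero {n : ℕ} (hn : 0 < n) : ∀ k, aR n (n + 1 + k) = 0 := by
  intro k
  induction k with
  | zero =>
    have h := aR_succ n n
    have hn' : (n : ℝ) ≠ 0 := by positivity
    rw [div_self hn', sub_self, zero_mul] at h
    have h2 : ((n : ℝ) + 1) ^ 2 ≠ 0 := by positivity
    simpa [h2] using h
  | succ k ih =>
    have h := aR_succ n (n + 1 + k)
    rw [ih, mul_zero] at h
    have h2 : (((n + 1 + k : ℕ) : ℝ) + 1) ^ 2 ≠ 0 := by positivity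
    rw [mul_eq_zero] at h
    rcases h with h | h
    · exact absurd h h2
    · exact h

theorem Lp_coeff {n : ℕ} (hn : 0 < n) (k : ℕ) : (Lp n).coeff k = aR n k := by
  unfold Lp
  rw [Polynomial.finsetSum_coeff]
  simp only [Polynomial.coeff_C_mul, Polynomial.coeff_X_pow]
  by_cases hk : k < n + 1
  · rw [Finset.sum_eq_single k]
    · simp [aR]
    · intro b _ hb
      simp [Ne.symm hb]
    · intro h
      exact absurd (Finset.mem_range.2 hk) h
  · obtain ⟨m, rfl⟩ := Nat.exists_eq_add_of_le (not_lt.1 hk)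
    rw [aR_eq_zero hn]
    apply Finset.sum_eq_zero
    intro i hi
    have : i < n + 1 := Finset.mem_range.1 hi
    simp
    intro h
    omega

/-- the Laguerre equation -/
theorem Lp_ode {n : ℕ} (hn : 0 < n) :
    Polynomial.X * (Lp n).derivative.derivative
      + (1 - Polynomial.C (1 / (n : ℝ)) * Polynomial.X) * (Lp n).derivative + Lp n = 0 := by
  ext k
  rw [sub_mul, one_mul, mul_assoc]
  simp only [Polynomial.coeff_add, Polynomial.coeff_sub, Polynomial.coeff_C_mul,
    Polynomial.coeff_zero]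
  rcases k with _ | k
  · simp only [Polynomial.coeff_X_mul_zero, Polynomial.coeff_derivative, Lp_coeff hn]
    have h := aR_succ n 0
    simp at h ⊢
    linarith
  · simp only [Polynomial.coeff_X_mul, Polynomial.coeff_derivative, Lp_coeff hn]
    have h := aR_succ n (k + 1)
    push_cast at h ⊢
    linear_combination h

theorem ode_eval {n : ℕ} (hn : 0 < n) (w : ℝ) :
    w * (Lp n).derivative.derivative.eval w
      + (1 - w / n) * (Lp n).derivative.eval w + (Lp n).eval w = 0 := by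
  have h := congrArg (Polynomial.eval w) (Lp_ode hn)
  simp only [Polynomial.eval_add, Polynomial.eval_mul, Polynomial.eval_sub, Polynomial.eval_X,
    Polynomial.eval_one, Polynomial.eval_C, Polynomial.eval_zero] at h
  rw [← h]
  ring

/-- `g_n = L_n' e^{-w/2n}`, so that `f_n = w g_n` and `f_n'' = (w/(4n²) - 1) g_n` -/
def gR (n : ℕ) (w : ℝ) : ℝ := (Lp n).derivative.eval w * exp (-(w / (2 * n)))

theorem fR_eq (n : ℕ) (w : ℝ) : fR n w = w * gR n w := by
  unfold fR gR; ring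

theorem hasDerivAt_exp (n : ℕ) (w : ℝ) :
    HasDerivAt (fun w : ℝ => exp (-(w / (2 * n)))) (-(1 / (2 * n)) * exp (-(w / (2 * n)))) w := by
  have h1 : HasDerivAt (fun w : ℝ => -(w / (2 * n))) (-(1 / (2 * n))) w :=
    ((hasDerivAt_id w).div_const _).neg
  exact h1.exp.congr_deriv (mul_comm _ _)

theorem hasDerivAt_fR {n : ℕ} (hn : 0 < n) (w : ℝ) : HasDerivAt (fR n) (fR' n w) w := by
  have hn' : (n : ℝ) ≠ 0 := by positivity
  have h1 := ((hasDerivAt_id w).mul ((Lp n).derivative.hasDerivAt w)).mul (hasDerivAt_exp n w)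
  have h2 := ode_eval hn w
  refine h1.congr_deriv ?_
  simp only [id, fR', Pi.mul_apply]
  have h3 : w * (Lp n).derivative.derivative.eval w
      = -((1 - w / n) * (Lp n).derivative.eval w) - (Lp n).eval w := by linarith
  rw [h3]
  field_simp
  ring

theorem hasDerivAt_fR' {n : ℕ} (hn : 0 < n) (w : ℝ) :
    HasDerivAt (fR' n) ((w / (4 * n ^ 2) - 1) * gR n w) w := by
  have hn' : (n : ℝ) ≠ 0 := by positivity
  have h0 : HasDerivAt (fun w : ℝ => w / (2 * n)) (1 / (2 * n)) w := (hasDerivAt_id w).div_const _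
  have h1 := ((h0.mul ((Lp n).derivative.hasDerivAt w)).sub ((Lp n).hasDerivAt w)).mul
    (hasDerivAt_exp n w)
  have h2 := ode_eval hn w
  refine h1.congr_deriv ?_
  simp only [gR, Pi.mul_apply, Pi.sub_apply]
  have h3 : w * (Lp n).derivative.derivative.eval w
      = -((1 - w / n) * (Lp n).derivative.eval w) - (Lp n).eval w := by linarith
  have h4 : w / (2 * n) * (Lp n).derivative.derivative.eval w
      = (1 / (2 * n)) * (w * (Lp n).derivative.derivative.eval w) := by ring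
  rw [h4, h3]
  field_simp
  ring

/-! ### integrals of polynomials times exponentials -/

theorem integrable_poly_exp (p : Polynomial ℝ) {c : ℝ} (hc : 0 < c) :
    IntegrableOn (fun w : ℝ => p.eval w * exp (-c * w)) (Ioi 0) := by
  induction p using Polynomial.induction_on' with
  | add p q hp hq =>
    have h : IntegrableOn ((fun w : ℝ => p.eval w * exp (-c * w))
      + (fun w : ℝ => q.eval w * exp (-c * w))) (Ioi 0) := hp.add hq
    refine h.congr_fun ?_ measurableSet_Ioi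
    intro w _
    simp only [Pi.add_apply, Polynomial.eval_add]
    ring
  | monomial k a =>
    have h : IntegrableOn (fun w : ℝ => a * (w ^ k * exp (-c * w))) (Ioi 0) :=
      (Vale.Agent.P363.H849.integrableOn_pow_exp k hc).const_mul a
    refine h.congr_fun ?_ measurableSet_Ioi
    intro w _
    simp only [Polynomial.eval_monomial]
    ring

theorem tendsto_poly_exp (p : Polynomial ℝ) {c : ℝ} (hc : 0 < c) :
    Tendsto (fun w : ℝ => p.eval w * exp (-c * w)) atTop (𝓝 0) := by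
  have h := Polynomial.tendsto_div_exp_atTop (p.comp (Polynomial.C c⁻¹ * Polynomial.X))
  have h2 := h.comp (tendsto_id.const_mul_atTop hc : Tendsto (fun w : ℝ => c * id w) atTop atTop)
  refine h2.congr ?_
  intro w
  simp only [Function.comp, Polynomial.eval_comp, Polynomial.eval_mul, Polynomial.eval_C,
    Polynomial.eval_X, id, neg_mul, Real.exp_neg]
  rw [inv_mul_cancel_left₀ hc.ne']
  rfl

theorem exp_sq (n : ℕ) (w : ℝ) :
    exp (-(w / (2 * n))) * exp (-(w / (2 * n))) = exp (-(1 / (n : ℝ)) * w) := by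
  rw [← Real.exp_add]
  congr 1
  by_cases hn : (n : ℝ) = 0
  · simp [hn]
  · field_simp
    ring

/-- functions of the form `p(w) e^{-w/n}` -/
def PE (n : ℕ) (F : ℝ → ℝ) : Prop :=
  ∃ p : Polynomial ℝ, ∀ w, F w = p.eval w * exp (-(1 / (n : ℝ)) * w)

theorem PE.integrable {n : ℕ} (hn : 0 < n) {F : ℝ → ℝ} (h : PE n F) : IntegrableOn F (Ioi 0) := by
  obtain ⟨p, hp⟩ := h
  have : F = fun w => p.eval w * exp (-(1 / (n : ℝ)) * w) := funext hp
  rw [this]
  exact integrable_poly_exp p (by positivity)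

theorem PE.tendsto {n : ℕ} (hn : 0 < n) {F : ℝ → ℝ} (h : PE n F) : Tendsto F atTop (𝓝 0) := by
  obtain ⟨p, hp⟩ := h
  have : F = fun w => p.eval w * exp (-(1 / (n : ℝ)) * w) := funext hp
  rw [this]
  exact tendsto_poly_exp p (by positivity)

theorem PE.pow_mul {n : ℕ} {F : ℝ → ℝ} (h : PE n F) (k : ℕ) : PE n (fun w => w ^ k * F w) := by
  obtain ⟨p, hp⟩ := h
  refine ⟨Polynomial.X ^ k * p, fun w => ?_⟩
  simp only [hp, Polynomial.eval_mul, Polynomial.eval_pow, Polynomial.eval_X]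
  ring

theorem pe_ff (n : ℕ) : PE n (fun w => fR n w ^ 2) := by
  refine ⟨(Polynomial.X * (Lp n).derivative) ^ 2, fun w => ?_⟩
  rw [← exp_sq]
  simp only [fR, Polynomial.eval_mul, Polynomial.eval_pow, Polynomial.eval_X]
  ring

theorem pe_ff' (n : ℕ) : PE n (fun w => fR n w * fR' n w) := by
  refine ⟨(Polynomial.X * (Lp n).derivative) *
    (Polynomial.C (1 / (2 * (n : ℝ))) * Polynomial.X * (Lp n).derivative - Lp n), fun w => ?_⟩
  rw [← exp_sq]
  simp only [fR, fR', Polynomial.eval_mul, Polynomial.eval_X, Polynomial.eval_C,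
    Polynomial.eval_sub]
  ring

theorem pe_f'f' (n : ℕ) : PE n (fun w => fR' n w ^ 2) := by
  refine ⟨(Polynomial.C (1 / (2 * (n : ℝ))) * Polynomial.X * (Lp n).derivative - Lp n) ^ 2,
    fun w => ?_⟩
  rw [← exp_sq]
  simp only [fR', Polynomial.eval_mul, Polynomial.eval_X, Polynomial.eval_C,
    Polynomial.eval_sub, Polynomial.eval_pow]
  ring

/-- moments -/
def MA (n k : ℕ) : ℝ := ∫ w in Ioi (0 : ℝ), w ^ k * fR n w ^ 2
def MB (n k : ℕ) : ℝ := ∫ w in Ioi (0 : ℝ), w ^ k * fR' n w ^ 2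
def MD (n k : ℕ) : ℝ := ∫ w in Ioi (0 : ℝ), w ^ k * (fR n w * fR' n w)

theorem MA_zero (n : ℕ) : MA n 0 = A0 n := by simp [MA, A0]

theorem iA {n : ℕ} (hn : 0 < n) (k : ℕ) : IntegrableOn (fun w => w ^ k * fR n w ^ 2) (Ioi 0) :=
  ((pe_ff n).pow_mul k).integrable hn
theorem iB {n : ℕ} (hn : 0 < n) (k : ℕ) : IntegrableOn (fun w => w ^ k * fR' n w ^ 2) (Ioi 0) :=
  ((pe_f'f' n).pow_mul k).integrable hn
theorem iD {n : ℕ} (hn : 0 < n) (k : ℕ) :
    IntegrableOn (fun w => w ^ k * (fR n w * fR' n w)) (Ioi 0) :=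
  ((pe_ff' n).pow_mul k).integrable hn

theorem integral_deriv_zero {F F' : ℝ → ℝ} (hd : ∀ w, HasDerivAt F (F' w) w)
    (hi : IntegrableOn F' (Ioi 0)) (ht : Tendsto F atTop (𝓝 0)) (h0 : F 0 = 0) :
    ∫ w in Ioi (0 : ℝ), F' w = 0 := by
  have := integral_Ioi_of_hasDerivAt_of_tendsto (a := 0) (f := F) (f' := F')
    (hd 0).continuousAt.continuousWithinAt (fun x _ => hd x) hi ht
  rw [this, h0, sub_zero]

theorem MD_zero {n : ℕ} (hn : 0 < n) : MD n 0 = 0 := by
  have hd : ∀ w, HasDerivAt (fun w => fR n w ^ 2) (2 * (fR n w * fR' n w)) w := fun w => by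
    have := (hasDerivAt_fR hn w).pow 2
    refine this.congr_deriv ?_
    simp; ring
  have h := integral_deriv_zero hd ?_ ((pe_ff n).tendsto hn) (by simp [fR])
  · rw [integral_const_mul] at h
    have : ∫ w in Ioi (0 : ℝ), fR n w * fR' n w = MD n 0 := by simp [MD]
    rw [this] at h
    linarith
  · have h2 : IntegrableOn (fun w => 2 * (w ^ 0 * (fR n w * fR' n w))) (Ioi 0) :=
      (iD hn 0).const_mul 2
    refine h2.congr_fun ?_ measurableSet_Ioi
    intro w _
    simp

theorem MD_succ {n : ℕ} (hn : 0 < n) (k : ℕ) : 2 * MD n (k + 1) = -((k : ℝ) + 1) * MA n k := by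
  have hd : ∀ w, HasDerivAt (fun w => w ^ (k + 1) * fR n w ^ 2)
      (((k : ℝ) + 1) * (w ^ k * fR n w ^ 2) + 2 * (w ^ (k + 1) * (fR n w * fR' n w))) w := by
    intro w
    have := (hasDerivAt_pow (k + 1) w).mul ((hasDerivAt_fR hn w).pow 2)
    refine this.congr_deriv ?_
    simp; ring
  have i1 := (iA hn k).const_mul ((k : ℝ) + 1)
  have i2 := (iD hn (k + 1)).const_mul 2
  have h := integral_deriv_zero hd (i1.add i2) (((pe_ff n).pow_mul (k + 1)).tendsto hn) (by simp)
  rw [integral_add i1 i2, integral_const_mul, integral_const_mul] at h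
  change ((k : ℝ) + 1) * MA n k + 2 * MD n (k + 1) = 0 at h
  linarith

theorem MB_succ {n : ℕ} (hn : 0 < n) (k : ℕ) :
    MB n (k + 1) = -((k : ℝ) + 1) * MD n k - 1 / (4 * n ^ 2) * MA n (k + 1) + MA n k := by
  have hn' : (n : ℝ) ≠ 0 := by positivity
  have hd : ∀ w, HasDerivAt (fun w => w ^ (k + 1) * (fR n w * fR' n w))
      (((k : ℝ) + 1) * (w ^ k * (fR n w * fR' n w)) + w ^ (k + 1) * fR' n w ^ 2
        + (1 / (4 * n ^ 2) * (w ^ (k + 1) * fR n w ^ 2) + -1 * (w ^ k * fR n w ^ 2))) w := by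
    intro w
    have := (hasDerivAt_pow (k + 1) w).mul ((hasDerivAt_fR hn w).mul (hasDerivAt_fR' hn w))
    refine this.congr_deriv ?_
    simp only [Pi.mul_apply, fR_eq, Nat.cast_add, Nat.cast_one, Nat.add_sub_cancel]
    ring
  have i1 := (iD hn k).const_mul ((k : ℝ) + 1)
  have i2 := iB hn (k + 1)
  have i3 := (iA hn (k + 1)).const_mul (1 / (4 * (n : ℝ) ^ 2))
  have i4 := (iA hn k).const_mul (-1)
  have h := integral_deriv_zero hd ((i1.add i2).add (i3.add i4))
    (((pe_ff' n).pow_mul (k + 1)).tendsto hn) (by simp)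
  have e1 := integral_add (i1.add i2) (i3.add i4)
  have e2 := integral_add i1 i2
  have e3 := integral_add i3 i4
  simp only [Pi.add_apply] at e1
  rw [e1, e2, e3, integral_const_mul, integral_const_mul, integral_const_mul] at h
  change ((k : ℝ) + 1) * MD n k + MB n (k + 1) + (1 / (4 * (n : ℝ) ^ 2) * MA n (k + 1)
    + -1 * MA n k) = 0 at h
  linarith

theorem MB_eq {n : ℕ} (hn : 0 < n) (k : ℕ) :
    ((k : ℝ) + 1) * MB n k = 2 * MD n k - 1 / (2 * n ^ 2) * MD n (k + 1) := by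
  have hn' : (n : ℝ) ≠ 0 := by positivity
  have hd : ∀ w, HasDerivAt (fun w => w ^ (k + 1) * fR' n w ^ 2)
      (((k : ℝ) + 1) * (w ^ k * fR' n w ^ 2)
        + (1 / (2 * n ^ 2) * (w ^ (k + 1) * (fR n w * fR' n w))
          + -2 * (w ^ k * (fR n w * fR' n w)))) w := by
    intro w
    have := (hasDerivAt_pow (k + 1) w).mul ((hasDerivAt_fR' hn w).pow 2)
    refine this.congr_deriv ?_
    simp only [Pi.pow_apply, fR_eq, Nat.cast_add, Nat.cast_one, Nat.add_sub_cancel, Nat.cast_ofNat]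
    field_simp
    ring
  have i1 := (iB hn k).const_mul ((k : ℝ) + 1)
  have i2 := (iD hn (k + 1)).const_mul (1 / (2 * (n : ℝ) ^ 2))
  have i3 := (iD hn k).const_mul (-2)
  have h := integral_deriv_zero hd (i1.add (i2.add i3))
    (((pe_f'f' n).pow_mul (k + 1)).tendsto hn) (by simp)
  have e1 := integral_add i1 (i2.add i3)
  have e2 := integral_add i2 i3
  simp only [Pi.add_apply] at e1
  rw [e1, e2, integral_const_mul, integral_const_mul, integral_const_mul] at h
  change ((k : ℝ) + 1) * MB n k + (1 / (2 * (n : ℝ) ^ 2) * MD n (k + 1) + -2 * MD n k) = 0 at h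
  linarith

/-- all the moments needed, in terms of `A₀` -/
theorem moments {n : ℕ} (hn : 0 < n) :
    MA n 1 = 3 * n ^ 2 * A0 n ∧ MA n 2 = 2 * n ^ 2 * (5 * n ^ 2 + 1) * A0 n ∧
    MB n 0 = A0 n / (4 * n ^ 2) ∧ MB n 1 = A0 n / 4 ∧ MB n 2 = (n ^ 2 + 1) * A0 n / 2 ∧
    MD n 0 = 0 ∧ MD n 1 = -(A0 n) / 2 ∧ MD n 2 = -(3 * n ^ 2 * A0 n) := by
  have hn' : (n : ℝ) ≠ 0 := by positivity
  have hA0 := MA_zero n
  have d0 := MD_zero hn
  have d1 := MD_succ hn 0
  have d2 := MD_succ hn 1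
  have d3 := MD_succ hn 2
  have b1 := MB_succ hn 0
  have b2 := MB_succ hn 1
  have c0 := MB_eq hn 0
  have c1 := MB_eq hn 1
  have c2 := MB_eq hn 2
  simp only [Nat.cast_zero, Nat.cast_one, Nat.cast_ofNat, zero_add] at d1 d2 d3 b1 b2 c0 c1 c2
  norm_num at d1 d2 d3 b1 b2 c0 c1 c2
  rw [hA0] at *
  have e1 : MD n 1 = -(A0 n) / 2 := by linarith
  have e2 : MD n 2 = -MA n 1 := by linarith
  have e3 : MD n 3 = -(3 / 2) * MA n 2 := by linarith
  rw [d0] at b1 c0
  rw [e1] at b2 c0 c1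
  rw [e2] at c1 c2
  rw [e3] at c2
  have f1 : MA n 1 = 3 * n ^ 2 * A0 n := by
    field_simp at b1 c1 ⊢
    nlinarith
  have f2 : MA n 2 = 2 * n ^ 2 * (5 * n ^ 2 + 1) * A0 n := by
    rw [f1] at b2 c2
    field_simp at b2 c2 ⊢
    nlinarith
  refine ⟨f1, f2, ?_, ?_, ?_, d0, e1, ?_⟩
  · field_simp at c0 ⊢
    linarith
  · rw [f1] at b1
    field_simp at b1 ⊢
    linarith
  · rw [f1, f2] at b2
    field_simp at b2 ⊢
    linarith
  · rw [e2, f1]

theorem fR_continuous {n : ℕ} (hn : 0 < n) : Continuous (fR n) :=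
  continuous_iff_continuousAt.2 fun w => (hasDerivAt_fR hn w).continuousAt

theorem fR'_continuous {n : ℕ} (hn : 0 < n) : Continuous (fR' n) :=
  continuous_iff_continuousAt.2 fun w => (hasDerivAt_fR' hn w).continuousAt

theorem A0_pos {n : ℕ} (hn : 0 < n) : 0 < A0 n := by
  have hi : IntegrableOn (fun w => fR n w ^ 2) (Ioi 0) := (pe_ff n).integrable hn
  unfold A0
  rw [setIntegral_pos_iff_support_of_nonneg_ae]
  · -- the support is open and nonempty
    have h0 : fR' n 0 = -1 := by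
      have h := Polynomial.coeff_zero_eq_eval_zero (Lp n)
      rw [Lp_coeff hn, aR_zero] at h
      simp [fR', ← h]
    have hd := hasDerivAt_fR hn 0
    rw [h0] at hd
    have hne : ∀ᶠ w in 𝓝[≠] (0 : ℝ), fR n w ≠ 0 := by
      have := hd.eventually_ne (c := 0) (by norm_num)
      simpa using this
    have hopen : IsOpen ((fun w => fR n w ^ 2).support ∩ Ioi 0) := by
      apply IsOpen.inter _ isOpen_Ioi
      exact ((fR_continuous hn).pow 2).isOpen_support
    have h1 : ∀ᶠ w in 𝓝[>] (0 : ℝ), fR n w ≠ 0 :=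
      hne.filter_mono (nhdsWithin_mono _ fun x hx => ne_of_gt hx)
    have h2 : ∀ᶠ w in 𝓝[>] (0 : ℝ), w ∈ Ioi (0 : ℝ) := self_mem_nhdsWithin
    obtain ⟨w, hw1, hw2⟩ := (h1.and h2).exists
    exact hopen.measure_pos volume ⟨w, by simpa using hw1, hw2⟩
  · filter_upwards with w
    positivity
  · exact hi

end

end Vale.Agent.P370.H32
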